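import Mathlib.Analysis.SpecialFunctions.SmoothTransition
import Mathlib.Analysis.SpecialFunctions.Log.Deriv
import Mathlib.MeasureTheory.Integral.IntervalIntegral.FundThmCalculus
import Mathlib.Analysis.Calculus.ContDiff.Operations
import Mathlib.Analysis.SpecialFunctions.Trigonometric.ArctanDeriv
import Mathlib.Analysis.Calculus.MeanValue
import Mathlib.Analysis.SpecialFunctions.Integrals.Basic

/-!
# Regularised logarithm
-/

open Set Filter
open scoped Topology ContDiff

noncomputable section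

namespace Vale.Agent.P299.H882

/-- the cut-off factor `t κ'(t)` -/
def lamK (δ t : ℝ) : ℝ := Real.smoothTransition (2 * t / δ - 1)

lemma lamK_contDiff (δ : ℝ) : ContDiff ℝ ∞ (lamK δ) := by
  unfold lamK
  exact (Real.smoothTransition.contDiff (n := (⊤ : ℕ∞))).comp
    (((contDiff_const.mul contDiff_id).div_const δ).sub contDiff_const)

lemma lamK_zero {δ t : ℝ} (hδ : 0 < δ) (ht : t ≤ δ / 2) : lamK δ t = 0 := by
  unfold lamK
  apply Real.smoothTransition.zero_of_nonpos
  rw [sub_nonpos, div_le_one hδ]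
  linarith

lemma lamK_one {δ t : ℝ} (hδ : 0 < δ) (ht : δ ≤ t) : lamK δ t = 1 := by
  unfold lamK
  apply Real.smoothTransition.one_of_one_le
  rw [le_sub_iff_add_le, le_div_iff₀ hδ]
  linarith

lemma lamK_mono {δ : ℝ} (hδ : 0 < δ) : Monotone (lamK δ) := by
  intro a b hab
  unfold lamK
  apply Real.smoothTransition.monotone
  have : 2 * a / δ ≤ 2 * b / δ := by gcongr
  linarith

/-- the derivative of `κ` -/
def fK (δ t : ℝ) : ℝ := lamK δ t / t

lemma fK_contDiff {δ : ℝ} (hδ : 0 < δ) : ContDiff ℝ ∞ (fK δ) := by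
  rw [contDiff_iff_contDiffAt]
  intro t
  by_cases ht : t < δ / 2
  · have h1 : fK δ =ᶠ[𝓝 t] fun _ => 0 := by
      filter_upwards [Iio_mem_nhds ht] with s hs
      unfold fK
      rw [lamK_zero hδ (le_of_lt hs), zero_div]
    exact contDiffAt_const.congr_of_eventuallyEq h1
  · have h0 : t ≠ 0 := by
      have : 0 < t := by linarith
      exact this.ne'
    exact (lamK_contDiff δ).contDiffAt.div contDiffAt_id h0

/-- the regularised logarithm: `log t` for `t ≥ δ`, constant near `0` -/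
def kap (δ t : ℝ) : ℝ := Real.log δ + ∫ s in δ..t, fK δ s

lemma hasDerivAt_kap {δ : ℝ} (hδ : 0 < δ) (t : ℝ) : HasDerivAt (kap δ) (fK δ t) t := by
  have hc : Continuous (fK δ) := (fK_contDiff hδ).continuous
  exact ((hc.integral_hasStrictDerivAt δ t).hasDerivAt).const_add (Real.log δ)

lemma deriv_kap {δ : ℝ} (hδ : 0 < δ) : deriv (kap δ) = fK δ :=
  funext fun t => (hasDerivAt_kap hδ t).deriv

lemma kap_contDiff {δ : ℝ} (hδ : 0 < δ) : ContDiff ℝ ∞ (kap δ) := by
  rw [contDiff_infty_iff_deriv, deriv_kap hδ]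
  exact ⟨fun t => (hasDerivAt_kap hδ t).differentiableAt, fK_contDiff hδ⟩

lemma kap_eq_log {δ t : ℝ} (hδ : 0 < δ) (ht : δ ≤ t) : kap δ t = Real.log t := by
  unfold kap
  have h1 : ∫ s in δ..t, fK δ s = ∫ s in δ..t, s⁻¹ := by
    apply intervalIntegral.integral_congr
    intro s hs
    rw [uIcc_of_le ht] at hs
    simp only [fK]
    rw [lamK_one hδ hs.1, one_div]
  have ht0 : 0 < t := lt_of_lt_of_le hδ ht
  rw [h1, integral_inv_of_pos hδ ht0, Real.log_div ht0.ne' hδ.ne']
  ring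

lemma fK_nonneg {δ t : ℝ} (ht : 0 ≤ t) : 0 ≤ fK δ t :=
  div_nonneg (Real.smoothTransition.nonneg _) ht

lemma mul_fK_le {δ t : ℝ} (ht : 0 ≤ t) : t * fK δ t ≤ 1 := by
  unfold fK
  rcases ht.eq_or_lt with h | h
  · rw [← h]; simp
  · rw [mul_div_cancel₀ _ h.ne']
    exact Real.smoothTransition.le_one _

lemma fK_add_nonneg {δ : ℝ} (hδ : 0 < δ) (t : ℝ) : 0 ≤ fK δ t + t * deriv (fK δ) t := by
  have h1 : HasDerivAt (fun s => s * fK δ s) (1 * fK δ t + t * deriv (fK δ) t) t := by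
    have h2 : HasDerivAt (fK δ) (deriv (fK δ) t) t :=
      ((fK_contDiff hδ).differentiable (by simp) t).hasDerivAt
    exact (hasDerivAt_id t).mul h2
  have h3 : (fun s => s * fK δ s) = lamK δ := by
    funext s
    unfold fK
    by_cases hs : s = 0
    · subst hs
      rw [lamK_zero hδ (by linarith)]; simp
    · rw [mul_div_cancel₀ _ hs]
  rw [h3, one_mul] at h1
  rw [← h1.deriv]
  exact (lamK_mono hδ).deriv_nonneg

lemma fK_zero {δ t : ℝ} (hδ : 0 < δ) (ht : t ≤ δ / 2) : fK δ t = 0 := by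
  unfold fK; rw [lamK_zero hδ ht, zero_div]

lemma deriv_fK_zero {δ t : ℝ} (hδ : 0 < δ) (ht : t < δ / 2) : deriv (fK δ) t = 0 := by
  have h1 : fK δ =ᶠ[𝓝 t] fun _ => 0 := by
    filter_upwards [Iio_mem_nhds ht] with s hs
    exact fK_zero hδ (le_of_lt hs)
  rw [h1.deriv_eq]; simp

/-! ### the primitive of arctan -/

/-- `∫₀ᵗ arctan` -/
def gA (t : ℝ) : ℝ := ∫ s in (0:ℝ)..t, Real.arctan s

lemma hasDerivAt_gA (t : ℝ) : HasDerivAt gA (Real.arctan t) t :=
  (Real.continuous_arctan.integral_hasStrictDerivAt 0 t).hasDerivAt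

lemma deriv_gA : deriv gA = Real.arctan := funext fun t => (hasDerivAt_gA t).deriv

lemma gA_contDiff : ContDiff ℝ ∞ gA := by
  rw [contDiff_infty_iff_deriv, deriv_gA]
  exact ⟨fun t => (hasDerivAt_gA t).differentiableAt, Real.contDiff_arctan⟩

lemma deriv_deriv_gA (t : ℝ) : deriv (deriv gA) t = 1 / (1 + t ^ 2) := by
  rw [deriv_gA, (Real.hasDerivAt_arctan t).deriv]

end Vale.Agent.P299.H882
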