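import Vale.Agent.P272.K.AMP.Calc
import Vale.Agent.P272.K.AMP.Green
import Vale.Agent.P299.H882.Kappa

/-!
# Truncated energy estimate
-/

open scoped Manifold ContDiff ComplexOrder Topology
open Complex Set Filter MeasureTheory

set_option linter.all false

noncomputable section

namespace Vale.Agent.P299.H882

open Vale.Agent.P272.K Vale.Agent.P272.K.AMP
open INT (IsDensity intX)

variable {n : ℕ} {X : Type*} [TopologicalSpace X] [ChartedSpace (Cm n) X]

/-- `∫_X f dv_g` -/
def J (g : Chart n X → Cm n → Matrix (Fin n) (Fin n) ℂ) [IsManifold 𝓘(ℂ, Cm n) ω X] [T2Space X]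
    [CompactSpace X] (f : X → ℝ) : ℝ :=
  intX fun (e : Chart n X) z => f (e.symm z) * (g e z).det.re

variable [IsManifold 𝓘(ℂ, Cm n) ω X] [T2Space X] [CompactSpace X]
  {g : Chart n X → Cm n → Matrix (Fin n) (Fin n) ℂ} {f f' : X → ℝ}

lemma det_pos_re (hg : IsHermitian g) {e : Chart n X} {x : X} (hx : At e x) :
    0 < (g e (e x)).det.re := (Complex.lt_def.1 (hg.posDef e x hx).det_pos).1

lemma dens_metric (hg : IsHermitian g) : IsDensity fun e z => (g e z).det.re :=
  INT.isDensity_det hg.isForm hg.smooth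

lemma J_dens (hg : IsHermitian g) (hf : Continuous f) :
    IsDensity (fun (e : Chart n X) z => f (e.symm z) * (g e z).det.re) :=
  (dens_metric hg).smul hf

lemma J_add (hg : IsHermitian g) (hf : Continuous f) (hf' : Continuous f') :
    J g (fun x => f x + f' x) = J g f + J g f' := by
  unfold J
  rw [← INT.intX_add (J_dens hg hf) (J_dens hg hf')]
  exact INT.intX_congr fun e x hx => by ring

lemma J_sub (hg : IsHermitian g) (hf : Continuous f) (hf' : Continuous f') :
    J g (fun x => f x - f' x) = J g f - J g f' := by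
  unfold J
  rw [← INT.intX_sub (J_dens hg hf) (J_dens hg hf')]
  exact INT.intX_congr fun e x hx => by ring

lemma J_const_mul (c : ℝ) : J g (fun x => c * f x) = c * J g f := by
  unfold J
  rw [← INT.intX_const_mul]
  exact INT.intX_congr fun e x hx => by ring

lemma J_mono (hg : IsHermitian g) (hf : Continuous f) (hf' : Continuous f')
    (h : ∀ x, f x ≤ f' x) : J g f ≤ J g f' := by
  refine INT.intX_mono (J_dens hg hf) (J_dens hg hf') fun e x hx => ?_
  rw [hx.left_inv]
  exact mul_le_mul_of_nonneg_right (h x) (det_pos_re hg hx).le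

lemma J_nonneg (hg : IsHermitian g) (h : ∀ x, 0 ≤ f x) : 0 ≤ J g f := by
  refine INT.intX_nonneg fun e x hx => ?_
  rw [hx.left_inv]
  exact mul_nonneg (h x) (det_pos_re hg hx).le

lemma J_congr (h : ∀ x, f x = f' x) : J g f = J g f' := by
  have : f = f' := funext h
  rw [this]

lemma J_lap (hg : IsKahler g) {u : X → ℝ} (hu : SmoothFn (n := n) u) : J g (lapX g u) = 0 := by
  rw [← intX_Ld hg hu]
  unfold J
  refine INT.intX_congr fun e x hx => ?_
  rw [hx.left_inv, lapX_eq hg.toIsHermitian hu hx]
  rfl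

lemma cont_lap (hg : IsHermitian g) {u : X → ℝ} (hu : SmoothFn (n := n) u) :
    Continuous (lapX g u) := sm_continuous (smoothFn_lapX hg hu)

lemma cont_grad (hg : IsHermitian g) {u v : X → ℝ} (hu : SmoothFn (n := n) u)
    (hv : SmoothFn (n := n) v) : Continuous (gradX g u v) :=
  sm_continuous (smoothFn_gradX hg hu hv)

/-- **truncated energy estimate** -/
theorem energy (hg : IsKahler g) {a b τ : X → ℝ} (ha : SmoothFn (n := n) a)
    (hb : SmoothFn (n := n) b) (hτ : Continuous τ) (hτ0 : ∀ x, 0 ≤ τ x) {m m0 : ℝ} (hm : 0 ≤ m)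
    (hm0 : 0 ≤ m0) (h1 : ∀ x, -(m * τ x) ≤ lapX g a x) (h2 : ∀ x, -(m0 * τ x) ≤ lapX g b x) :
    J g (fun x => gradX g (fun x => a x - b x) (fun x => a x - b x) x / (1 + (a x - b x) ^ 2)) ≤
      Real.pi * (m + m0) * J g τ := by
  have hgH := hg.toIsHermitian
  set u : X → ℝ := fun x => a x - b x with hu
  have hus : SmoothFn (n := n) u := sm_sub ha hb
  have huc : Continuous u := sm_continuous hus
  have hG : SmoothFn (n := n) (fun x => gA (u x)) :=
    sm_comp (φ := gA) (fun x => gA_contDiff.contDiffAt) hus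
  have e0 := J_lap hg hG
  have e1 : ∀ x, lapX g (fun x => gA (u x)) x =
      Real.arctan (u x) * lapX g u x + gradX g u u x / (1 + u x ^ 2) := by
    intro x
    rw [lapX_comp' (gA_contDiff.contDiffAt.of_le (by norm_cast)) hus, deriv_deriv_gA, deriv_gA]
    ring
  rw [J_congr e1] at e0
  have c1 : Continuous fun x => Real.arctan (u x) * lapX g u x :=
    (Real.continuous_arctan.comp huc).mul (cont_lap hgH hus)
  have c2 : Continuous fun x => gradX g u u x / (1 + u x ^ 2) :=
    (cont_grad hgH hus hus).div (by fun_prop) fun x => by positivity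
  rw [J_add hgH c1 c2] at e0
  have e2 : J g (fun x => gradX g u u x / (1 + u x ^ 2)) =
      (-1) * J g (fun x => Real.arctan (u x) * lapX g u x) := by linarith
  have ca := cont_lap hgH ha
  have cb := cont_lap hgH hb
  rw [e2, ← J_const_mul]
  have hle : ∀ x, (-1) * (Real.arctan (u x) * lapX g u x) ≤
      Real.pi / 2 * lapX g a x + (Real.pi / 2 * lapX g b x + Real.pi * (m + m0) * τ x) := by
    intro x
    have h3 : lapX g u x = lapX g a x - lapX g b x := lapX_sub' ha hb x
    have h4 := (Real.arctan_lt_pi_div_two (u x)).le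
    have h5 := (Real.neg_pi_div_two_lt_arctan (u x)).le
    have h6 := h1 x
    have h7 := h2 x
    have h8 := hτ0 x
    rw [h3]
    nlinarith [mul_nonneg (sub_nonneg.2 h4) (by linarith : 0 ≤ lapX g b x + m0 * τ x),
      mul_nonneg (by linarith : 0 ≤ Real.arctan (u x) + Real.pi / 2)
        (by linarith : 0 ≤ lapX g a x + m * τ x),
      mul_nonneg (sub_nonneg.2 h4) (mul_nonneg hm h8),
      mul_nonneg (by linarith : 0 ≤ Real.arctan (u x) + Real.pi / 2) (mul_nonneg hm0 h8)]
  have c3 : Continuous fun x => (-1) * (Real.arctan (u x) * lapX g u x) := continuous_const.mul c1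
  have c4 : Continuous fun x => Real.pi / 2 * lapX g a x := continuous_const.mul ca
  have c5 : Continuous fun x => Real.pi / 2 * lapX g b x := continuous_const.mul cb
  have c6 : Continuous fun x => Real.pi * (m + m0) * τ x := continuous_const.mul hτ
  have c7 : Continuous fun x => Real.pi / 2 * lapX g b x + Real.pi * (m + m0) * τ x := c5.add c6
  have c8 : Continuous fun x => Real.pi / 2 * lapX g a x +
      (Real.pi / 2 * lapX g b x + Real.pi * (m + m0) * τ x) := c4.add c7
  refine (J_mono hgH c3 c8 hle).trans ?_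
  rw [J_add hgH c4 c7, J_add hgH c5 c6,
      J_const_mul, J_const_mul, J_const_mul, J_lap hg ha, J_lap hg hb]
  linarith

/-- the regularised logarithm of a function satisfying the Bochner inequality is subharmonic up
to the curvature -/
theorem lap_kap (hg : IsKahler g) {S τ : X → ℝ} (hS : SmoothFn (n := n) S) (hS0 : ∀ x, 0 ≤ S x)
    (hτ0 : ∀ x, 0 ≤ τ x) {m : ℝ} (hm : 0 ≤ m)
    (hB : ∀ x, gradX g S S x ≤ S x * lapX g S x + m * S x ^ 2 * τ x) {δ : ℝ} (hδ : 0 < δ) (x : X) :
    -(m * τ x) ≤ lapX g (fun x => kap δ (S x)) x := by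
  have hmτ : 0 ≤ m * τ x := mul_nonneg hm (hτ0 x)
  rw [lapX_comp' ((kap_contDiff hδ).contDiffAt.of_le (by norm_cast)) hS, deriv_kap hδ]
  by_cases hx : S x < δ / 2
  · rw [fK_zero hδ hx.le, deriv_fK_zero hδ hx]
    linarith
  · have hSx : 0 < S x := by linarith [not_lt.1 hx]
    have h1 := hB x
    have h2 := fK_nonneg (δ := δ) hSx.le
    have h3 := mul_fK_le (δ := δ) hSx.le
    have h4 := fK_add_nonneg hδ (S x)
    have h5 := gradX_self_nonneg (fun e x h => hg.posDef e x h) S x
    set L := lapX g S x
    set G := gradX g S S x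
    set F := fK δ (S x)
    set F' := deriv (fK δ) (S x)
    -- multiply by `S x`
    have h6 : 0 ≤ S x * (F * L + F' * G + m * τ x) := by
      have e1 : S x * (F * L + F' * G + m * τ x) =
          F * (S x * L + m * S x ^ 2 * τ x - G) + (F + S x * F') * G +
            m * τ x * S x * (1 - S x * F) := by ring
      rw [e1]
      have t1 : 0 ≤ F * (S x * L + m * S x ^ 2 * τ x - G) := mul_nonneg h2 (by linarith)
      have t2 : 0 ≤ (F + S x * F') * G := mul_nonneg h4 h5
      have t3 : 0 ≤ m * τ x * S x * (1 - S x * F) :=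
        mul_nonneg (mul_nonneg hmτ hSx.le) (by linarith)
      linarith
    have h7 := nonneg_of_mul_nonneg_right (a := S x) (b := F * L + F' * G + m * τ x)
    have h8 : 0 ≤ F * L + F' * G + m * τ x := by
      by_contra h
      push Not at h
      have := mul_neg_of_pos_of_neg hSx h
      linarith
    linarith

end Vale.Agent.P299.H882
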