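import Vale.Agent.P272.K.QN.H327.Frame
import Mathlib.LinearAlgebra.Lagrange
import Mathlib.LinearAlgebra.Matrix.Rank

/-!
# Pointwise linear algebra for the flatness theorem

`w` positive definite, `Θ` positive semidefinite, `ξ` a covector; the pencil `s Θ + w`.
-/

open scoped ComplexConjugate ComplexOrder
open Matrix Polynomial

set_option linter.all false

noncomputable section

namespace Vale.Agent.P299.H882

open Vale.Agent.P272.K

variable {n : ℕ}

/-- `|ξ|²_A = ξᴴ A⁻¹ ξ` -/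
def qf (A : Matrix (Fin n) (Fin n) ℂ) (ξ : Fin n → ℂ) : ℝ :=
  (A⁻¹ * vecMulVec ξ (star ξ)).trace.re

section frame

variable {T U : Matrix (Fin n) (Fin n) ℂ} (hUT : U * T = 1) (hTU : T * U = 1)

include hUT hTU

lemma inv_frame {a : Fin n → ℝ} (ha : ∀ k, 0 < a k) :
    (T * diagonal (fun k => ((a k : ℝ) : ℂ)) * Tᴴ)⁻¹ =
      Uᴴ * diagonal (fun k => (((a k)⁻¹ : ℝ) : ℂ)) * U := by
  apply Matrix.inv_eq_right_inv
  have h1 : Tᴴ * Uᴴ = 1 := by rw [← conjTranspose_mul, hUT, conjTranspose_one]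
  have h2 : diagonal (fun k => ((a k : ℝ) : ℂ)) * diagonal (fun k => (((a k)⁻¹ : ℝ) : ℂ)) =
      (1 : Matrix (Fin n) (Fin n) ℂ) := by
    rw [diagonal_mul_diagonal, ← diagonal_one]
    congr 1
    funext k
    rw [← Complex.ofReal_mul, mul_inv_cancel₀ (ha k).ne', Complex.ofReal_one]
  calc T * diagonal (fun k => ((a k : ℝ) : ℂ)) * Tᴴ *
        (Uᴴ * diagonal (fun k => (((a k)⁻¹ : ℝ) : ℂ)) * U)
      = T * diagonal (fun k => ((a k : ℝ) : ℂ)) * (Tᴴ * Uᴴ) *
        diagonal (fun k => (((a k)⁻¹ : ℝ) : ℂ)) * U := by noncomm_ring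
    _ = T * (diagonal (fun k => ((a k : ℝ) : ℂ)) * diagonal (fun k => (((a k)⁻¹ : ℝ) : ℂ))) * U := by
        rw [h1]; noncomm_ring
    _ = 1 := by rw [h2, mul_one, hTU]

lemma qf_frame {a : Fin n → ℝ} (ha : ∀ k, 0 < a k) (ξ : Fin n → ℂ) :
    qf (T * diagonal (fun k => ((a k : ℝ) : ℂ)) * Tᴴ) ξ =
      ∑ k, ‖(U *ᵥ ξ) k‖ ^ 2 / a k := by
  unfold qf
  rw [inv_frame hUT hTU ha]
  have h1 : (Uᴴ * diagonal (fun k => (((a k)⁻¹ : ℝ) : ℂ)) * U * vecMulVec ξ (star ξ)).trace =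
      (diagonal (fun k => (((a k)⁻¹ : ℝ) : ℂ)) * vecMulVec (U *ᵥ ξ) (star (U *ᵥ ξ))).trace := by
    have e1 : vecMulVec (U *ᵥ ξ) (star (U *ᵥ ξ)) = U * vecMulVec ξ (star ξ) * Uᴴ := by
      rw [Matrix.mul_vecMulVec, Matrix.vecMulVec_mul, Matrix.star_mulVec]
    rw [e1, Matrix.mul_assoc, Matrix.mul_assoc, Matrix.trace_mul_comm]
    congr 1
    noncomm_ring
  rw [h1]
  simp only [Matrix.trace, Matrix.diag_apply, Matrix.diagonal_mul, Matrix.vecMulVec_apply,
    Complex.re_sum]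
  refine Finset.sum_congr rfl fun k _ => ?_
  have h2 : (U *ᵥ ξ) k * (star (U *ᵥ ξ)) k = ((‖(U *ᵥ ξ) k‖ ^ 2 : ℝ) : ℂ) := by
    rw [Pi.star_apply, RCLike.star_def, Complex.mul_conj, Complex.normSq_eq_norm_sq]
  rw [h2, ← Complex.ofReal_mul, Complex.ofReal_re]
  rw [div_eq_inv_mul]

omit hUT hTU in
lemma det_frame (a : Fin n → ℝ) :
    (T * diagonal (fun k => ((a k : ℝ) : ℂ)) * Tᴴ).det.re = ‖T.det‖ ^ 2 * ∏ k, a k := by
  rw [det_mul, det_mul, det_diagonal, det_conjTranspose]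
  have h1 : T.det * (∏ k, ((a k : ℝ) : ℂ)) * star T.det = ((‖T.det‖ ^ 2 * ∏ k, a k : ℝ) : ℂ) := by
    rw [RCLike.star_def, mul_right_comm, Complex.mul_conj, Complex.normSq_eq_norm_sq]
    push_cast
    ring
  rw [h1, Complex.ofReal_re]

lemma norm_det_pos : 0 < ‖T.det‖ ^ 2 := by
  have : T.det ≠ 0 := by
    intro h
    have := congrArg Matrix.det hTU
    rw [det_mul, h, zero_mul, det_one] at this
    exact zero_ne_one this
  positivity

end frame

lemma diag_one_eq : (diagonal (fun _ : Fin n => (((1 : ℝ) : ℝ) : ℂ)) : Matrix (Fin n) (Fin n) ℂ) = 1 := by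
  rw [← diagonal_one]; congr 1

/-- comparison of two dual metrics: `|ξ|²_A ≤ tr(A⁻¹B) |ξ|²_B` -/
theorem qf_le {A B : Matrix (Fin n) (Fin n) ℂ} (hA : A.PosDef) (hB : B.PosDef) (ξ : Fin n → ℂ) :
    qf A ξ ≤ (A⁻¹ * B).trace.re * qf B ξ := by
  obtain ⟨T, U, β, hβ, hUT, hTU, h1, h2⟩ := QN.H327.exists_frame hA hB.posSemidef
  have h1' : A = T * diagonal (fun _ => ((1 : ℝ) : ℂ)) * Tᴴ := by
    rw [diag_one_eq, mul_one]; exact h1
  have hβ' : ∀ k, 0 < β k := by
    intro k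
    refine lt_of_le_of_ne (hβ k) fun h0 => ?_
    have h3 := hB.det_pos
    have h4 := det_frame (T := T) β
    rw [← h2, Finset.prod_eq_zero (Finset.mem_univ k) h0.symm, mul_zero] at h4
    have := (Complex.lt_def.1 h3).1
    rw [h4] at this
    exact lt_irrefl _ this
  have q1 : qf A ξ = ∑ k, ‖(U *ᵥ ξ) k‖ ^ 2 := by
    rw [h1', qf_frame hUT hTU (fun _ => one_pos)]
    simp
  have q2 : qf B ξ = ∑ k, ‖(U *ᵥ ξ) k‖ ^ 2 / β k := by
    rw [h2, qf_frame hUT hTU hβ']
  have q3 : (A⁻¹ * B).trace.re = ∑ k, β k := by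
    have e1 : A⁻¹ = Uᴴ * U := by
      rw [h1', inv_frame hUT hTU (fun _ => one_pos)]
      have : (diagonal (fun _ : Fin n => ((((1:ℝ))⁻¹ : ℝ) : ℂ)) : Matrix (Fin n) (Fin n) ℂ) = 1 := by
        rw [inv_one]; exact diag_one_eq
      rw [this, mul_one]
    have h3 : Tᴴ * Uᴴ = 1 := by rw [← conjTranspose_mul, hUT, conjTranspose_one]
    rw [e1, h2, Matrix.trace_mul_comm]
    have e2 : T * diagonal (fun k => ((β k : ℝ) : ℂ)) * Tᴴ * (Uᴴ * U) =
        T * diagonal (fun k => ((β k : ℝ) : ℂ)) * (Tᴴ * Uᴴ) * U := by noncomm_ring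
    rw [e2, h3, mul_one, Matrix.trace_mul_comm, ← Matrix.mul_assoc, hUT, one_mul,
      Matrix.trace_diagonal, Complex.re_sum]
    simp
  rw [q1, q2, q3]
  have hs : ∀ k, β k ≤ ∑ k, β k := fun k =>
    Finset.single_le_sum (f := β) (fun i _ => hβ i) (Finset.mem_univ k)
  rw [Finset.mul_sum]
  refine Finset.sum_le_sum fun k _ => ?_
  rw [mul_div_assoc', le_div_iff₀ (hβ' k), mul_comm]
  exact mul_le_mul_of_nonneg_right (hs k) (by positivity)

lemma qf_nonneg {A : Matrix (Fin n) (Fin n) ℂ} (hA : A.PosDef) (ξ : Fin n → ℂ) : 0 ≤ qf A ξ := by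
  obtain ⟨T, U, β, hβ, hUT, hTU, h1, h2⟩ := QN.H327.exists_frame hA Matrix.PosSemidef.zero
  have h1' : A = T * diagonal (fun _ => ((1 : ℝ) : ℂ)) * Tᴴ := by
    rw [diag_one_eq, mul_one]; exact h1
  rw [h1', qf_frame hUT hTU (fun _ => one_pos)]
  positivity

/-! ### The pencil -/

/-- a polynomial with nonnegative coefficients -/
def NN (p : ℝ[X]) : Prop := ∀ j, 0 ≤ p.coeff j

lemma NN.add {p q : ℝ[X]} (hp : NN p) (hq : NN q) : NN (p + q) := fun j => by
  rw [coeff_add]; exact add_nonneg (hp j) (hq j)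

lemma NN.mul {p q : ℝ[X]} (hp : NN p) (hq : NN q) : NN (p * q) := fun j => by
  rw [coeff_mul]; exact Finset.sum_nonneg fun x _ => mul_nonneg (hp _) (hq _)

lemma NN.C {c : ℝ} (hc : 0 ≤ c) : NN (C c) := fun j => by
  rw [coeff_C]; split_ifs <;> simp [hc]

lemma NN.one : NN (1 : ℝ[X]) := by
  have := NN.C (c := 1) zero_le_one
  simpa using this

lemma NN.prod {ι : Type*} (s : Finset ι) {p : ι → ℝ[X]} (hp : ∀ i ∈ s, NN (p i)) :
    NN (∏ i ∈ s, p i) := by
  classical
  induction s using Finset.induction_on with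
  | empty => simpa using NN.one
  | insert a s ha ih =>
    rw [Finset.prod_insert ha]
    exact (hp a (Finset.mem_insert_self a s)).mul
      (ih fun i hi => hp i (Finset.mem_insert_of_mem hi))

lemma NN.sum {ι : Type*} (s : Finset ι) {p : ι → ℝ[X]} (hp : ∀ i ∈ s, NN (p i)) :
    NN (∑ i ∈ s, p i) := fun j => by
  rw [finset_sum_coeff]; exact Finset.sum_nonneg fun i hi => hp i hi j

/-- the linear factor `1 + a X` -/
def lf (a : ℝ) : ℝ[X] := C a * X + C 1

lemma NN.lf {a : ℝ} (ha : 0 ≤ a) : NN (lf a) := by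
  intro j
  unfold H882.lf
  rw [coeff_add, coeff_C_mul_X, coeff_C]
  have h1 : (0 : ℝ) ≤ if j = 1 then a else 0 := by split_ifs; exacts [ha, le_refl 0]
  have h2 : (0 : ℝ) ≤ if j = 0 then 1 else 0 := by split_ifs; exacts [zero_le_one, le_refl 0]
  exact add_nonneg h1 h2

lemma natDegree_lf_le (a : ℝ) : (lf a).natDegree ≤ 1 := natDegree_linear_le

lemma lf_zero : lf 0 = 1 := by simp [lf]

lemma natDegree_prod_lf_le (s : Finset (Fin n)) (a : Fin n → ℝ) :
    (∏ k ∈ s, lf (a k)).natDegree ≤ n := by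
  refine (natDegree_prod_le _ _).trans ?_
  refine (Finset.sum_le_sum fun i _ => natDegree_lf_le (a i)).trans ?_
  simp only [Finset.sum_const, smul_eq_mul, mul_one]
  simpa using Finset.card_le_univ s

lemma coeff_prod_lf {s : Finset (Fin n)} {a : Fin n → ℝ} (ha : ∀ k ∈ s, a k ≠ 0) :
    (∏ k ∈ s, lf (a k)).coeff s.card = ∏ k ∈ s, a k := by
  have h1 : ∀ k ∈ s, (lf (a k)).natDegree = 1 := fun k hk => natDegree_linear (ha k hk)
  have h2 : (∏ k ∈ s, lf (a k)).natDegree = s.card := by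
    rw [natDegree_prod]
    · rw [Finset.sum_congr rfl h1]; simp
    · intro k hk h0
      have := h1 k hk
      rw [h0] at this
      simp at this
  have h3 := leadingCoeff_prod (s := s) (fun k => lf (a k))
  rw [leadingCoeff, h2] at h3
  rw [h3]
  refine Finset.prod_congr rfl fun k hk => ?_
  exact leadingCoeff_linear (ha k hk)

lemma eval_lf (a s : ℝ) : (lf a).eval s = 1 + s * a := by
  unfold lf; simp; ring

section pencil

variable {w Θ : Matrix (Fin n) (Fin n) ℂ}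

lemma pencil_posDef (hw : w.PosDef) (hΘ : Θ.PosSemidef) {s : ℝ} (hs : 0 ≤ s) :
    ((s : ℂ) • Θ + w).PosDef := by
  have h1 : ((s : ℂ) • Θ).PosSemidef := hΘ.smul (by exact_mod_cast hs)
  exact Matrix.PosDef.posSemidef_add h1 hw

/-- frame adapted to the pencil -/
lemma exists_pencil_frame (hw : w.PosDef) (hΘ : Θ.PosSemidef) :
    ∃ (T U : Matrix (Fin n) (Fin n) ℂ) (η : Fin n → ℝ), (∀ k, 0 ≤ η k) ∧ U * T = 1 ∧ T * U = 1 ∧
      Θ = T * diagonal (fun k => ((η k : ℝ) : ℂ)) * Tᴴ ∧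
      (∀ s : ℝ, (s : ℂ) • Θ + w = T * diagonal (fun k => ((1 + s * η k : ℝ) : ℂ)) * Tᴴ) ∧
      Θ.rank = (Finset.univ.filter fun k => η k ≠ 0).card := by
  obtain ⟨T, U, η, hη, hUT, hTU, h1, h2⟩ := QN.H327.exists_frame hw hΘ
  refine ⟨T, U, η, hη, hUT, hTU, h2, fun s => ?_, ?_⟩
  · have e1 : (diagonal (fun k => ((1 + s * η k : ℝ) : ℂ)) : Matrix (Fin n) (Fin n) ℂ) =
        1 + (s : ℂ) • diagonal (fun k => ((η k : ℝ) : ℂ)) := by
      rw [← diagonal_one, ← diagonal_smul, diagonal_add]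
      congr 1
      funext k
      simp
    rw [e1, h1, h2]
    simp only [Matrix.mul_add, Matrix.add_mul, mul_one, Matrix.mul_smul, Matrix.smul_mul]
    rw [add_comm]
  · have hdT : IsUnit T.det := by
      refine isUnit_iff_ne_zero.2 fun h0 => ?_
      have := congrArg Matrix.det hTU
      rw [det_mul, h0, zero_mul, det_one] at this
      exact zero_ne_one this
    have hdT' : IsUnit (Tᴴ).det := by
      rw [det_conjTranspose]; exact hdT.star
    rw [h2, Matrix.rank_mul_eq_left_of_isUnit_det _ _ hdT',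
      Matrix.rank_mul_eq_right_of_isUnit_det _ _ hdT, Matrix.rank_diagonal]
    rw [Fintype.card_subtype]
    congr 1
    ext k
    simp

/-- growth of the determinant of the pencil -/
theorem det_pencil_le (hw : w.PosDef) (hΘ : Θ.PosSemidef) {ν : ℕ} (hr : Θ.rank ≤ ν) {s : ℝ}
    (hs : 1 ≤ s) : ((s : ℂ) • Θ + w).det.re ≤ s ^ ν * ((1 : ℂ) • Θ + w).det.re := by
  obtain ⟨T, U, η, hη, hUT, hTU, h2, hp, hrk⟩ := exists_pencil_frame hw hΘ
  have e1 := hp 1
  rw [Complex.ofReal_one] at e1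
  rw [hp s, e1, det_frame, det_frame]
  have hD := norm_det_pos hUT hTU
  rw [mul_left_comm]
  refine mul_le_mul_of_nonneg_left ?_ hD.le
  have h3 : ∀ k, 1 + s * η k ≤ (if η k ≠ 0 then s else 1) * (1 + 1 * η k) := by
    intro k
    split_ifs with h
    · have := hη k
      nlinarith
    · push Not at h
      rw [h]; simp
  refine (Finset.prod_le_prod (fun k _ => ?_) fun k _ => h3 k).trans ?_
  · have := hη k
    nlinarith [mul_nonneg (zero_le_one.trans hs) (hη k)]
  rw [Finset.prod_mul_distrib]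
  refine mul_le_mul_of_nonneg_right ?_ (Finset.prod_nonneg fun k _ => by
    have := hη k; linarith)
  rw [Finset.prod_ite, Finset.prod_const, Finset.prod_const_one, mul_one]
  refine pow_le_pow_right₀ hs ?_
  rw [← hrk]; exact hr

/-- the polynomial `s ↦ |ξ|²_{sΘ+w} det(sΘ+w)/det w` -/
theorem exists_poly (hw : w.PosDef) (hΘ : Θ.PosSemidef) (ξ : Fin n → ℂ) :
    ∃ p : ℝ[X], p.natDegree ≤ n ∧ NN p ∧
      (∀ s : ℝ, 0 ≤ s → p.eval s = qf ((s : ℂ) • Θ + w) ξ * (((s : ℂ) • Θ + w).det.re / w.det.re)) ∧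
      ∀ v : Fin n → ℂ, (∀ j, ∑ i, v i * Θ i j = 0) → ∑ i, ξ i * v i ≠ 0 → 0 < p.coeff Θ.rank := by
  classical
  obtain ⟨T, U, η, hη, hUT, hTU, h2, hp, hrk⟩ := exists_pencil_frame hw hΘ
  set c : Fin n → ℝ := fun k => ‖(U *ᵥ ξ) k‖ ^ 2 with hc
  set p : ℝ[X] := ∑ k, C (c k) * ∏ l ∈ Finset.univ.erase k, lf (η l) with hpdef
  have hnn : ∀ k, NN (C (c k) * ∏ l ∈ Finset.univ.erase k, lf (η l)) := fun k =>
    (NN.C (by positivity)).mul (NN.prod _ fun l _ => NN.lf (hη l))
  refine ⟨p, ?_, NN.sum _ fun k _ => hnn k, fun s hs => ?_, fun v hv hξ => ?_⟩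
  · refine natDegree_sum_le_of_forall_le _ _ fun k _ => ?_
    refine (natDegree_C_mul_le _ _).trans (natDegree_prod_lf_le _ _)
  · have hpos : ∀ k, 0 < 1 + s * η k := fun k => by
      have := mul_nonneg hs (hη k); linarith
    have hw0 : w = T * diagonal (fun k => ((1 + 0 * η k : ℝ) : ℂ)) * Tᴴ := by
      rw [← hp 0]; simp
    have hdw : w.det.re = ‖T.det‖ ^ 2 := by
      rw [hw0, det_frame]; simp
    rw [hp s, qf_frame hUT hTU hpos, det_frame, hdw,
      mul_div_cancel_left₀ _ (norm_det_pos hUT hTU).ne', hpdef, eval_finset_sum, Finset.sum_mul]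
    refine Finset.sum_congr rfl fun k _ => ?_
    rw [eval_mul, eval_C, eval_prod, ← Finset.mul_prod_erase Finset.univ _ (Finset.mem_univ k)]
    simp only [eval_lf]
    have := (hpos k).ne'
    simp only [hc]
    field_simp
  · -- the covector does not kill the kernel vector `v`
    have h3 : ξ = T *ᵥ (U *ᵥ ξ) := by
      rw [Matrix.mulVec_mulVec, hTU, Matrix.one_mulVec]
    have h4 : ∑ i, ξ i * v i = ∑ k, (U *ᵥ ξ) k * (v ᵥ* T) k := by
      have : ξ ⬝ᵥ v = (U *ᵥ ξ) ⬝ᵥ (v ᵥ* T) := by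
        conv_lhs => rw [h3]
        rw [dotProduct_comm, Matrix.dotProduct_mulVec, dotProduct_comm]
      exact this
    rw [h4] at hξ
    obtain ⟨k, -, hk⟩ := Finset.exists_ne_zero_of_sum_ne_zero hξ
    have hk1 : (U *ᵥ ξ) k ≠ 0 := left_ne_zero_of_mul hk
    have hk2 : (v ᵥ* T) k ≠ 0 := right_ne_zero_of_mul hk
    -- `v T diag η Tᴴ = 0`
    have h5 : v ᵥ* Θ = 0 := by
      funext j
      exact hv j
    have h6 : (v ᵥ* T) ᵥ* diagonal (fun k => ((η k : ℝ) : ℂ)) = 0 := by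
      have h7 : Tᴴ * Uᴴ = 1 := by rw [← conjTranspose_mul, hUT, conjTranspose_one]
      have h8 : (v ᵥ* Θ) ᵥ* Uᴴ = 0 := by rw [h5, Matrix.zero_vecMul]
      rw [h2, Matrix.vecMul_vecMul, Matrix.mul_assoc, h7, mul_one, ← Matrix.vecMul_vecMul] at h8
      exact h8
    have hηk : η k = 0 := by
      have h9 := congrFun h6 k
      rw [Matrix.vecMul_diagonal] at h9
      have := (mul_eq_zero.1 h9).resolve_left hk2
      exact_mod_cast this
    have hck : 0 < c k := by
      have : 0 < ‖(U *ᵥ ξ) k‖ := norm_pos_iff.2 hk1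
      positivity
    have h10 : (C (c k) * ∏ l ∈ Finset.univ.erase k, lf (η l)).coeff Θ.rank =
        c k * ∏ l ∈ Finset.univ.filter (fun k => η k ≠ 0), η l := by
      rw [coeff_C_mul]
      congr 1
      have h11 : ∏ l ∈ Finset.univ.erase k, lf (η l) =
          ∏ l ∈ Finset.univ.filter (fun k => η k ≠ 0), lf (η l) := by
        refine (Finset.prod_subset ?_ ?_).symm
        · intro l hl
          rw [Finset.mem_filter] at hl
          refine Finset.mem_erase.2 ⟨fun h => hl.2 (h ▸ hηk), Finset.mem_univ l⟩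
        · intro l _ hl
          rw [Finset.mem_filter, not_and] at hl
          have := hl (Finset.mem_univ l)
          push Not at this
          rw [this, lf_zero]
      rw [h11, hrk]
      exact coeff_prod_lf fun l hl => (Finset.mem_filter.1 hl).2
    have h12 : (C (c k) * ∏ l ∈ Finset.univ.erase k, lf (η l)).coeff Θ.rank ≤ p.coeff Θ.rank := by
      rw [hpdef, finset_sum_coeff]
      exact Finset.single_le_sum (f := fun k =>
        (C (c k) * ∏ l ∈ Finset.univ.erase k, lf (η l)).coeff Θ.rank)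
        (fun i _ => hnn i _) (Finset.mem_univ k)
    refine lt_of_lt_of_le ?_ h12
    rw [h10]
    refine mul_pos hck (Finset.prod_pos fun l hl => ?_)
    exact lt_of_le_of_ne (hη l) (Ne.symm (Finset.mem_filter.1 hl).2)

end pencil

/-- the coefficients of a real polynomial of degree `≤ n` are fixed linear combinations of its values
at `0, 1, …, n` -/
theorem exists_coeff_formula (n ν : ℕ) : ∃ c : Fin (n + 1) → ℝ, ∀ p : ℝ[X], p.natDegree ≤ n →
    p.coeff ν = ∑ l : Fin (n + 1), c l * p.eval ((l : ℕ) : ℝ) := by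
  classical
  set v : Fin (n + 1) → ℝ := fun l => ((l : ℕ) : ℝ) with hv
  refine ⟨fun l => (Lagrange.basis Finset.univ v l).coeff ν, fun p hp => ?_⟩
  have hinj : Set.InjOn v (Finset.univ : Finset (Fin (n + 1))) := by
    intro a _ b _ h
    have : ((a : ℕ) : ℝ) = ((b : ℕ) : ℝ) := h
    exact Fin.ext (by exact_mod_cast this)
  have hdeg : p.degree < (Finset.univ : Finset (Fin (n + 1))).card := by
    rw [Finset.card_univ, Fintype.card_fin]
    refine (degree_le_natDegree).trans_lt ?_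
    exact_mod_cast Nat.lt_succ_of_le hp
  have h1 := Lagrange.eq_interpolate hinj hdeg
  conv_lhs => rw [h1]
  rw [Lagrange.interpolate_apply, finset_sum_coeff]
  refine Finset.sum_congr rfl fun l _ => ?_
  rw [coeff_C_mul, mul_comm]

/-- a polynomial with nonnegative coefficients dominates each of its terms -/
lemma NN.le_eval {p : ℝ[X]} (hp : NN p) {s : ℝ} (hs : 0 ≤ s) (j : ℕ) : p.coeff j * s ^ j ≤ p.eval s := by
  rw [eval_eq_sum_range]
  by_cases h : j ∈ Finset.range (p.natDegree + 1)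
  · exact Finset.single_le_sum (f := fun i => p.coeff i * s ^ i)
      (fun i _ => mul_nonneg (hp i) (pow_nonneg hs i)) h
  · have : p.coeff j = 0 := coeff_eq_zero_of_natDegree_lt (by simpa using h)
    rw [this, zero_mul]
    exact Finset.sum_nonneg fun i _ => mul_nonneg (hp i) (pow_nonneg hs i)

end Vale.Agent.P299.H882
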