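import Vale.Agent.P299.H882.Energy
import Vale.Agent.P299.H882.Mat
import Vale.Agent.P299.H723.D.Defs
import Vale.Agent.P299.H835.Iface
import Vale.Agent.P272.S2B.Threshold

/-!
# The Kähler forms `χ_s = s Ric(w) + w` and the Yau metrics in their classes
-/

open scoped Manifold ContDiff ComplexOrder Topology
open Complex Set Filter MeasureTheory

set_option linter.all false

noncomputable section

namespace Vale.Agent.P299.H882

open Vale.Agent.P272.K Vale.Agent.P272.K.AMP Vale.Agent.P299.D
open INT (IsDensity intX IsClosedForm)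

variable {n : ℕ} {X : Type} [TopologicalSpace X] [ChartedSpace (Cm n) X]
  [IsManifold 𝓘(ℂ, Cm n) ω X]
  {w : Chart n X → Cm n → Matrix (Fin n) (Fin n) ℂ}

/-- `χ_s = s Ric(w) + w` -/
def chi (w : Chart n X → Cm n → Matrix (Fin n) (Fin n) ℂ) (s : ℝ) :
    Chart n X → Cm n → Matrix (Fin n) (Fin n) ℂ := fun e z => (s : ℂ) • ric w e z + w e z

lemma isClosed_ric (hw : IsKahler w) : IsClosedForm (ric w) := by
  have h1 := (INT.isClosedForm_canonical (Vale.Agent.P272.S2B.isCanonical_log_det
    hw.toIsHermitian)).smul (-1)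
  have h2 : (fun (e : Chart n X) z => (-1 : ℂ) • cHess (fun y => Real.log (w e y).det.re) z) =
      ric w := by
    funext e z
    rw [neg_one_smul]; rfl
  rwa [h2] at h1

lemma isClosed_chi (hw : IsKahler w) (s : ℝ) : IsClosedForm (chi w s) :=
  ((isClosed_ric hw).smul (s : ℂ)).add (INT.IsKahler.isClosedForm hw)

lemma chi_posDef (hw : IsKahler w) (hR : RicNonneg w) {s : ℝ} (hs : 0 ≤ s) {e : Chart n X} {x : X}
    (hx : At e x) : (chi w s e (e x)).PosDef :=
  pencil_posDef (hw.posDef e x hx) (hR e x hx) hs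

lemma isKahler_of_closed' {b : Chart n X → Cm n → Matrix (Fin n) (Fin n) ℂ} (hb : IsClosedForm b)
    (hp : ∀ e x, At e x → (b e (e x)).PosDef) : IsKahler b where
  smooth := hb.smooth
  posDef := hp
  change := hb.form
  closed e x h i j k := hb.closed e x h k i j

lemma isKahler_chi (hw : IsKahler w) (hR : RicNonneg w) {s : ℝ} (hs : 0 ≤ s) :
    IsKahler (chi w s) :=
  isKahler_of_closed' (isClosed_chi hw s) fun e x hx => chi_posDef hw hR hs hx

/-- quotient of the volume densities of `g` and `w` -/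
def detR (g w : Chart n X → Cm n → Matrix (Fin n) (Fin n) ℂ) : X → ℝ :=
  atX fun e z => (g e z).det.re / (w e z).det.re

lemma detR_change {g : Chart n X → Cm n → Matrix (Fin n) (Fin n) ℂ} (hg : IsHermitian g)
    (hw : IsHermitian w) {e e' : Chart n X} {x : X} (hx : At e x) (hx' : At e' x) :
    (g e (e x)).det.re / (w e (e x)).det.re = (g e' (e' x)).det.re / (w e' (e' x)).det.re := by
  rw [det_form_re hg.isForm hx hx', det_form_re hw.isForm hx hx']
  have h1 : ‖(jacM e e' x).det‖ ^ 2 ≠ 0 :=
    pow_ne_zero 2 (norm_ne_zero_iff.2 (jacM_det_ne_zero hx hx'))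
  rw [mul_div_mul_left _ _ h1]

lemma detR_eq {g : Chart n X → Cm n → Matrix (Fin n) (Fin n) ℂ} (hg : IsHermitian g)
    (hw : IsHermitian w) {e : Chart n X} {x : X} (hx : At e x) :
    detR g w x = (g e (e x)).det.re / (w e (e x)).det.re :=
  detR_change hg hw (at_chartAt x) hx

lemma smoothFn_detR {g : Chart n X → Cm n → Matrix (Fin n) (Fin n) ℂ} (hg : IsHermitian g)
    (hw : IsHermitian w) : SmoothFn (n := n) (detR g w) := by
  refine smoothFn_atX (fun e x hx => ?_) fun e e' x h h' => detR_change hg hw h h'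
  have h1 : ContDiffAt ℝ ∞ (fun z => (g e z).det.re) (e x) :=
    (Complex.reCLM.contDiff.contDiffAt).comp (e x) (contDiffAt_det (hg.smooth e x hx))
  have h2 : ContDiffAt ℝ ∞ (fun z => (w e z).det.re) (e x) :=
    (Complex.reCLM.contDiff.contDiffAt).comp (e x) (contDiffAt_det (hw.smooth e x hx))
  exact h1.div h2 (hw.det_re_pos hx).ne'

lemma detR_pos {g : Chart n X → Cm n → Matrix (Fin n) (Fin n) ℂ} (hg : IsHermitian g)
    (hw : IsHermitian w) (x : X) : 0 < detR g w x := by
  rw [detR_eq hg hw (at_chartAt x)]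
  exact div_pos (hg.det_re_pos (at_chartAt x)) (hw.det_re_pos (at_chartAt x))

section

variable [T2Space X] [CompactSpace X]

lemma J_detR {g : Chart n X → Cm n → Matrix (Fin n) (Fin n) ℂ} (hg : IsHermitian g)
    (hw : IsHermitian w) (f : X → ℝ) : J w (fun x => f x * detR g w x) = J g f := by
  unfold J
  refine INT.intX_congr fun e x hx => ?_
  beta_reduce
  rw [hx.left_inv, detR_eq hg hw hx, mul_assoc, div_mul_cancel₀ _ (hw.det_re_pos hx).ne']

lemma J_scale {g : Chart n X → Cm n → Matrix (Fin n) (Fin n) ℂ} (hg : IsHermitian g)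
    (hw : IsHermitian w) {c : ℝ} (h : ∀ e x, At e x →
      Real.log (g e (e x)).det.re = Real.log (w e (e x)).det.re + c) (f : X → ℝ) :
    J g f = Real.exp c * J w f := by
  unfold J
  rw [← INT.intX_const_mul]
  refine INT.intX_congr fun e x hx => ?_
  have h1 : (g e (e x)).det.re = (w e (e x)).det.re * Real.exp c := by
    have := congrArg Real.exp (h e x hx)
    rwa [Real.exp_log (hg.det_re_pos hx), Real.exp_add, Real.exp_log (hw.det_re_pos hx)] at this
  rw [h1]
  ring

lemma J_one (g : Chart n X → Cm n → Matrix (Fin n) (Fin n) ℂ) :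
    J g (fun _ => 1) = intX fun (e : Chart n X) z => (g e z).det.re := by
  unfold J
  refine INT.intX_congr fun e x hx => ?_
  rw [one_mul]

lemma J_pos [Nonempty X] {g : Chart n X → Cm n → Matrix (Fin n) (Fin n) ℂ} (hg : IsHermitian g) :
    0 < J g (fun _ => 1) := by
  rw [J_one]
  exact INT.intX_pos (dens_metric hg) fun e x hx => hg.det_re_pos hx

/-- growth of the volume of `χ_s` -/
lemma vol_chi_le (hw : IsKahler w) (hR : RicNonneg w) {ν : ℕ}
    (hν : ∀ e x, At e x → (ric w e (e x)).rank ≤ ν) {s : ℝ} (hs : 1 ≤ s) :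
    J (chi w s) (fun _ => 1) ≤ s ^ ν * J (chi w 1) (fun _ => 1) := by
  rw [J_one, J_one, ← INT.intX_const_mul]
  have h1 := isKahler_chi hw hR zero_le_one
  have h2 := isKahler_chi hw hR (zero_le_one.trans hs)
  refine INT.intX_mono (dens_metric h2.toIsHermitian) ((dens_metric h1.toIsHermitian).const_mul _)
    fun e x hx => ?_
  have := det_pencil_le (hw.posDef e x hx) (hR e x hx) (hν e x hx) hs
  have e1 : chi w 1 e (e x) = (1 : ℂ) • ric w e (e x) + w e (e x) := by
    unfold chi; rw [Complex.ofReal_one]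
  rw [e1]
  exact this

/-- the Yau metric in the class of `χ_s` -/
theorem exists_yau (hYau : H835.YauStatement n X) (hw : IsKahler w) (hR : RicNonneg w) {s : ℝ}
    (hs : 0 ≤ s) : ∃ (u : X → ℝ) (c : ℝ), SmoothFn (n := n) u ∧ IsKahler (addH (chi w s) u) ∧
      ∀ e x, At e x → Real.log (addH (chi w s) u e (e x)).det.re =
        Real.log (w e (e x)).det.re + c := by
  have hχ := isKahler_chi hw hR hs
  have hcan := Vale.Agent.P272.S2B.isCanonical_log_det hw.toIsHermitian
  obtain ⟨u, c, hu, hpos, heq⟩ := hYau (chi w s) hχ _ (smoothFn_ricPot hχ.toIsHermitian hcan)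
  refine ⟨u, c, hu, ?_, fun e x hx => ?_⟩
  · refine isKahler_of_closed' ?_ hpos
    exact (isClosed_chi hw s).add (INT.isClosedForm_cHess hu)
  · have := heq e x hx
    rw [ricPot_eq hχ.toIsHermitian hcan hx] at this
    linarith

/-- a nonnegative density which is positive somewhere has positive integral -/
theorem intX_pos' {D : Chart n X → Cm n → ℝ} (hD : IsDensity D)
    (h : ∀ e x, At e x → 0 ≤ D e (e x)) (x : X) (hx0 : ∀ e, At e x → 0 < D e (e x)) :
    0 < intX D := by
  set P := INT.part n X with hP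
  have h1 : ∃ i, 0 < P.ρ i x := by
    by_contra hcon
    push Not at hcon
    have := P.sum x
    have h2 : ∑ i, P.ρ i x ≤ 0 := Finset.sum_nonpos fun i _ => hcon i
    linarith
  obtain ⟨i, hi⟩ := h1
  have hDi : ∀ z ∈ (P.e i).target, 0 ≤ D (P.e i) z := fun z hz => by
    have := h (P.e i) ((P.e i).symm z) ⟨P.mem i, (P.e i).map_target hz⟩
    rwa [(P.e i).right_inv hz] at this
  unfold INT.intX
  rw [← hP]
  refine Finset.sum_pos' (fun j _ => ?_) ⟨i, Finset.mem_univ i, ?_⟩
  · refine setIntegral_nonneg (P.e j).open_target.measurableSet fun z hz => ?_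
    have := h (P.e j) ((P.e j).symm z) ⟨P.mem j, (P.e j).map_target hz⟩
    rw [(P.e j).right_inv hz] at this
    exact mul_nonneg (P.nonneg j _) this
  · have hx : x ∈ (P.e i).source := P.supp i (subset_tsupport _ (by
      simp only [Function.mem_support]; exact hi.ne'))
    have hAt : At (P.e i) x := ⟨P.mem i, hx⟩
    rw [setIntegral_pos_iff_support_of_nonneg_ae]
    · have hcont : ContinuousAt (fun z => P.ρ i ((P.e i).symm z) * D (P.e i) z) ((P.e i) x) := by
        refine ContinuousAt.mul ?_ (hD.cont _ _ hAt)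
        exact (P.cont i).continuousAt.comp ((P.e i).continuousAt_symm ((P.e i).map_source hx))
      have hpos : 0 < P.ρ i ((P.e i).symm ((P.e i) x)) * D (P.e i) ((P.e i) x) := by
        rw [(P.e i).left_inv hx]
        exact mul_pos hi (hx0 _ hAt)
      have hev : ∀ᶠ z in 𝓝 ((P.e i) x), z ∈ (P.e i).target ∧
          0 < P.ρ i ((P.e i).symm z) * D (P.e i) z := by
        filter_upwards [(P.e i).open_target.mem_nhds ((P.e i).map_source hx),
          hcont.eventually (lt_mem_nhds hpos)] with z h1 h2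
        exact ⟨h1, h2⟩
      obtain ⟨O, hO, hOo, hxO⟩ := mem_nhds_iff.1 hev
      refine (hOo.measure_pos volume ⟨_, hxO⟩).trans_le (measure_mono ?_)
      intro z hz
      exact ⟨(hO hz).2.ne', (hO hz).1⟩
    · filter_upwards [self_mem_ae_restrict (P.e i).open_target.measurableSet] with z hz
      exact mul_nonneg (P.nonneg i _) (hDi z hz)
    · exact INT.integrableOn_part P hD i

lemma J_pos_of {g : Chart n X → Cm n → Matrix (Fin n) (Fin n) ℂ} (hg : IsHermitian g) {f : X → ℝ}
    (hf : Continuous f) (h0 : ∀ x, 0 ≤ f x) {x : X} (hx : 0 < f x) : 0 < J g f := by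
  refine intX_pos' (J_dens hg hf) (fun e y hy => ?_) x fun e he => ?_
  · rw [hy.left_inv]; exact mul_nonneg (h0 y) (hg.det_re_pos hy).le
  · rw [he.left_inv]; exact mul_pos hx (hg.det_re_pos he)

end

end Vale.Agent.P299.H882
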