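import Vale.Agent.P299.H882.Flat
import Vale.Agent.P299.H937.Boch
import Vale.Agent.P299.H212.Thin
import Vale.Agent.P299.H835.Final
import Vale.Agent.P299.H937.C0

/-!
# The flatness theorem for ratios of proportional holomorphic tensors

`w` a Kähler metric with `Ric(w) ≥ 0` on the compact connected complex manifold `X`; `σ₀ ∈
H⁰((Ω¹)^{⊗p} ⊗ (-m₀K))` and `σ ∈ H⁰((Ω¹)^{⊗p} ⊗ (-m₁K))` proportional nonzero tensors. Then the
derivative of the meromorphic function `σ/σ₀` (covariant derivative in `-(m₁-m₀)K`) vanishes in the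
directions of `ker Ric(w)` at all points where the rank of `Ric(w)` is maximal.
-/

open scoped Manifold ContDiff ComplexOrder Topology
open Complex Set Filter MeasureTheory Matrix

set_option linter.all false

noncomputable section

namespace Vale.Agent.P299.H882

open Vale.Agent.P272.K Vale.Agent.P272.K.AMP Vale.Agent.P299.D
open H937 (normTen nTen thetaM)
open H212 (PropTo nzSet)

variable {n : ℕ} {X : Type} [TopologicalSpace X] [ChartedSpace (Cm n) X]
  [IsManifold 𝓘(ℂ, Cm n) ω X]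
  {w g : Chart n X → Cm n → Matrix (Fin n) (Fin n) ℂ}

/-- the Bochner inequality in the form used by `flat_core` -/
theorem bochIneq (hg : IsKahler g) {m : ℝ} {S : X → ℝ} (hS : SmoothFn (n := n) S)
    (hS0 : ∀ x, 0 ≤ S x)
    (h : ∀ d : ℝ, 0 < d → ∀ x, -(m * trX g (ric w) x) ≤
      lapX g (fun y => Real.log (S y + d)) x) : BochIneq w g m S := by
  intro x
  have key : ∀ d : ℝ, 0 < d → gradX g S S x ≤ (S x + d) * lapX g S x +
      m * (S x + d) ^ 2 * trX g (ric w) x := by
    intro d hd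
    have hpos : 0 < S x + d := by have := hS0 x; linarith
    have h1 := h d hd x
    have hder : ∀ t : ℝ, 0 < t + d → HasDerivAt (fun t => Real.log (t + d)) (t + d)⁻¹ t := by
      intro t ht
      have := (((hasDerivAt_id t).add_const d).log ht.ne')
      simpa using this
    have hd1 : ∀ t : ℝ, 0 < t + d → deriv (fun t => Real.log (t + d)) t = (t + d)⁻¹ := fun t ht =>
      (hder t ht).deriv
    have hd2 : deriv (deriv fun t => Real.log (t + d)) (S x) = -((S x + d) ^ 2)⁻¹ := by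
      have h2 : deriv (fun t => Real.log (t + d)) =ᶠ[𝓝 (S x)] fun t => (t + d)⁻¹ := by
        have : ∀ᶠ t in 𝓝 (S x), 0 < t + d :=
          (continuous_id.add continuous_const).continuousAt.eventually (lt_mem_nhds hpos)
        filter_upwards [this] with t ht using hd1 t ht
      rw [h2.deriv_eq]
      have := (((hasDerivAt_id (S x)).add_const d).inv hpos.ne').deriv
      have h3 : deriv (fun t : ℝ => (t + d)⁻¹) (S x) = deriv (fun t : ℝ => t + d)⁻¹ (S x) := rfl
      rw [h3]
      simpa [neg_div, div_eq_mul_inv] using this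
    have hcd : ContDiffAt ℝ 2 (fun t => Real.log (t + d)) (S x) :=
      (contDiffAt_id.add contDiffAt_const).log hpos.ne'
    rw [lapX_comp' hcd hS, hd1 _ hpos, hd2] at h1
    have h3 := mul_le_mul_of_nonneg_left h1 (sq_nonneg (S x + d))
    have e1 : (S x + d) ^ 2 * ((S x + d)⁻¹ * lapX g S x + -((S x + d) ^ 2)⁻¹ * gradX g S S x) =
        (S x + d) * lapX g S x - gradX g S S x := by
      field_simp
      ring
    rw [e1] at h3
    linarith
  have hlim : Tendsto (fun d : ℝ => (S x + d) * lapX g S x +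
      m * (S x + d) ^ 2 * trX g (ric w) x) (𝓝[>] 0) (𝓝 (S x * lapX g S x +
      m * S x ^ 2 * trX g (ric w) x)) := by
    have : Continuous fun d : ℝ => (S x + d) * lapX g S x +
      m * (S x + d) ^ 2 * trX g (ric w) x := by fun_prop
    have h2 := this.tendsto 0
    simp only [add_zero] at h2
    exact h2.mono_left nhdsWithin_le_nhds
  refine ge_of_tendsto hlim ?_
  filter_upwards [self_mem_nhdsWithin] with d hd using key d hd

/-- the metric of the canonical bundle given by the volume form of `w` -/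
def ldet (w : Chart n X → Cm n → Matrix (Fin n) (Fin n) ℂ) : Chart n X → Cm n → ℝ :=
  fun e z => Real.log (w e z).det.re

lemma isCanonical_ldet (hw : IsHermitian w) : IsCanonicalMetric (ldet w) :=
  Vale.Agent.P272.S2B.isCanonical_log_det hw

variable {p m0 m1 : ℕ} {σ0 σ : Ten n p X}

lemma nTen_prop {φ : Chart n X → Cm n → ℝ} {e : Chart n X} {z : Cm n} {c : ℂ}
    (h : ∀ I, σ e z I = c * σ0 e z I) : nTen g φ m1 σ e z =
      ‖c‖ ^ 2 * Real.exp (((m1 : ℝ) - m0) * φ e z) * nTen g φ m0 σ0 e z := by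
  have h1 : (∑ I, ∑ J, σ e z I * (starRingEnd ℂ) (σ e z J) * ∏ a, (g e z)⁻¹ (J a) (I a)) =
      ((‖c‖ ^ 2 : ℝ) : ℂ) *
        ∑ I, ∑ J, σ0 e z I * (starRingEnd ℂ) (σ0 e z J) * ∏ a, (g e z)⁻¹ (J a) (I a) := by
    rw [Complex.ofReal_pow, ← Complex.mul_conj', Finset.mul_sum]
    refine Finset.sum_congr rfl fun I _ => ?_
    rw [Finset.mul_sum]
    refine Finset.sum_congr rfl fun J _ => ?_
    rw [h I, h J, map_mul]
    ring
  unfold nTen
  rw [h1, Complex.re_ofReal_mul]
  have h2 : Real.exp (m1 * φ e z) = Real.exp (((m1 : ℝ) - m0) * φ e z) * Real.exp (m0 * φ e z) := by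
    rw [← Real.exp_add]; congr 1; ring
  rw [h2]
  ring

/-- `∂ log |f|² = ∂f / f` -/
lemma dz_log_norm_sq {f : Cm n → ℂ} {z : Cm n} (hf : DifferentiableAt ℂ f z) (h0 : f z ≠ 0)
    (i : Fin n) : dz i (fun y => ((Real.log (‖f y‖ ^ 2) : ℝ) : ℂ)) z = dz i f z / f z := by
  have hfr : DifferentiableAt ℝ f z := hf.restrictScalars ℝ
  have hn : DifferentiableAt ℝ (fun y => ‖f y‖ ^ 2) z := by
    have := hfr.norm_sq ℝ
    exact this
  have hpos : 0 < ‖f z‖ ^ 2 := by
    have := norm_pos_iff.2 h0; positivity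
  rw [dz_real_comp (φ := Real.log) (Real.differentiableAt_log hpos.ne') hn, Real.deriv_log]
  have h1 : (fun y => ((‖f y‖ ^ 2 : ℝ) : ℂ)) = fun y => f y * (starRingEnd ℂ) (f y) := by
    funext y; rw [Complex.ofReal_pow, ← Complex.mul_conj']
  have hcj : DifferentiableAt ℝ (fun y => (starRingEnd ℂ) (f y)) z := by
    have := Complex.conjCLE.differentiableAt.comp z hfr
    exact this
  rw [h1, INT.dz_mul hfr hcj, INT.dz_conj, INT.dzb_of_holo hf]
  have h2 : (((‖f z‖ ^ 2)⁻¹ : ℝ) : ℂ) = (f z * (starRingEnd ℂ) (f z))⁻¹ := by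
    rw [Complex.ofReal_inv, Complex.ofReal_pow, ← Complex.mul_conj']
  have h3 : (starRingEnd ℂ) (f z) ≠ 0 := by simpa using h0
  rw [h2]
  field_simp
  simp

/-- the function `log |σ|² - log |σ₀|²` -/
def uT (w : Chart n X → Cm n → Matrix (Fin n) (Fin n) ℂ) (m0 m1 : ℕ) (σ0 σ : Ten n p X) : X → ℝ :=
  fun x => Real.log (normTen w (ldet w) m1 σ x) - Real.log (normTen w (ldet w) m0 σ0 x)

lemma ric_theta : thetaM (ldet w) = ric w := rfl

/-- the structure used by `flat_core` -/
theorem uT_struct (hw : IsKahler w) (hR : RicNonneg w) (h0 : IsTen p m0 σ0) (h1 : IsTen p m1 σ)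
    (hp : PropTo σ0 σ) (hg : IsKahler g)
    (hc : ∃ c : ℝ, ∀ e x, At e x → Real.log (g e (e x)).det.re =
      Real.log (w e (e x)).det.re + c) :
    ∃ S S0 : X → ℝ, SmoothFn (n := n) S ∧ SmoothFn (n := n) S0 ∧ (∀ x, 0 ≤ S x) ∧
      (∀ x, 0 ≤ S0 x) ∧ (∀ x ∈ nzSet σ0 ∩ nzSet σ, 0 < S x ∧ 0 < S0 x ∧
        uT w m0 m1 σ0 σ x = Real.log (S x) - Real.log (S0 x)) ∧
      BochIneq w g m1 S ∧ BochIneq w g m0 S0 := by
  have hwH := hw.toIsHermitian
  have hgH := hg.toIsHermitian
  have hφ := isCanonical_ldet hwH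
  have hΘ : ∀ e x, At e x → (thetaM (ldet w) e (e x)).PosSemidef := hR
  refine ⟨normTen g (ldet w) m1 σ, normTen g (ldet w) m0 σ0, H937.smooth_normTen hgH hφ h1,
    H937.smooth_normTen hgH hφ h0, fun x => H937.normTen_nonneg hgH x,
    fun x => H937.normTen_nonneg hgH x, ?_, ?_, ?_⟩
  · rintro x ⟨hx0, hx1⟩
    have hx := at_chartAt (n := n) x
    set e : Chart n X := chartAt (Cm n) x with he
    have hs0 := (H212.mem_nzSet h0 hx).1 hx0
    have hs1 := (H212.mem_nzSet h1 hx).1 hx1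
    obtain ⟨J, hJ⟩ := Function.ne_iff.1 hs0
    simp only [Pi.zero_apply] at hJ
    set c : ℂ := σ e (e x) J / σ0 e (e x) J with hcdef
    have hprop : ∀ I, σ e (e x) I = c * σ0 e (e x) I := by
      intro I
      have := hp e x hx I J
      rw [hcdef]
      field_simp
      linear_combination -this
    have hc0 : c ≠ 0 := by
      intro h
      apply hs1
      funext I
      rw [hprop I, h, zero_mul]
      rfl
    have pos : ∀ {g' : Chart n X → Cm n → Matrix (Fin n) (Fin n) ℂ} {m : ℕ} {s : Ten n p X},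
        IsHermitian g' → IsTen p m s → s e (e x) ≠ 0 → 0 < normTen g' (ldet w) m s x := by
      intro g' m s hg' hs hne
      refine lt_of_le_of_ne (H937.normTen_nonneg hg' x) fun h => hne ?_
      funext I
      exact (H937.normTen_eq_zero_iff hg' hφ hs hx).1 h.symm I
    have form : ∀ {g' : Chart n X → Cm n → Matrix (Fin n) (Fin n) ℂ}, IsHermitian g' →
        Real.log (normTen g' (ldet w) m1 σ x) - Real.log (normTen g' (ldet w) m0 σ0 x) =
          Real.log (‖c‖ ^ 2 * Real.exp (((m1 : ℝ) - m0) * ldet w e (e x))) := by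
      intro g' hg'
      have e1 := H937.normTen_eq hg' hφ h1 hx
      have e2 := H937.normTen_eq hg' hφ h0 hx
      have p0 := pos hg' h0 hs0
      rw [e1, nTen_prop (g := g') (φ := ldet w) (m0 := m0) (m1 := m1) hprop, ← e2, Real.log_mul,
        add_sub_cancel_right]
      · have := norm_pos_iff.2 hc0
        positivity
      · exact p0.ne'
    refine ⟨pos hgH h1 hs1, pos hgH h0 hs0, ?_⟩
    rw [uT, form hwH, form hgH]
  · refine bochIneq hg (H937.smooth_normTen hgH hφ h1) (fun x => H937.normTen_nonneg hgH x)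
      fun d hd x => ?_
    exact H937.boch' hg hφ hc hΘ h1 hd x
  · refine bochIneq hg (H937.smooth_normTen hgH hφ h0) (fun x => H937.normTen_nonneg hgH x)
      fun d hd x => ?_
    exact H937.boch' hg hφ hc hΘ h0 hd x

/-- the covariant derivative of `f` (a local meromorphic section of `-(m₁-m₀)K`) -/
def cov (w : Chart n X → Cm n → Matrix (Fin n) (Fin n) ℂ) (b : ℂ) (e : Chart n X) (f : Cm n → ℂ)
    (z : Cm n) : Fin n → ℂ :=
  fun i => dz i f z + b * f z * dz i (fun y => ((ldet w e y : ℝ) : ℂ)) z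

lemma cov_eq (hw : IsHermitian w) (h0 : IsTen p m0 σ0) (h1 : IsTen p m1 σ) {e : Chart n X} {x : X}
    (hx : At e x) {f : Cm n → ℂ} (hf : AnalyticAt ℂ f (e x)) (hf0 : f (e x) ≠ 0)
    (hσ0 : σ0 e (e x) ≠ 0)
    (hfe : ∀ᶠ z in 𝓝 (e x), ∀ I, σ e z I = f z * σ0 e z I) :
    cov w ((m1 : ℂ) - m0) e f (e x) = fun i => f (e x) * xi (uT w m0 m1 σ0 σ) e (e x) i := by
  have hφ := isCanonical_ldet hw
  have hloc : (fun y => uT w m0 m1 σ0 σ (e.symm y)) =ᶠ[𝓝 (e x)]
      fun y => Real.log (‖f y‖ ^ 2) + ((m1 : ℝ) - m0) * ldet w e y := by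
    have c1 : ∀ᶠ z in 𝓝 (e x), f z ≠ 0 := hf.continuousAt.eventually_ne hf0
    have c2 : ∀ᶠ z in 𝓝 (e x), σ0 e z ≠ 0 :=
      (H212.analyticAt_ten h0 hx).continuousAt.eventually_ne hσ0
    filter_upwards [c1, c2, hfe, hx.nhds_target] with z hz1 hz2 hz3 hz4
    have hz : At e (e.symm z) := At.of_target hx.1 hz4
    have er : e (e.symm z) = z := e.right_inv hz4
    have e1 := H937.normTen_eq hw hφ h1 hz
    have e2 := H937.normTen_eq hw hφ h0 hz
    have p0 : 0 < normTen w (ldet w) m0 σ0 (e.symm z) := by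
      refine lt_of_le_of_ne (H937.normTen_nonneg hw _) fun h => hz2 ?_
      funext I
      have := (H937.normTen_eq_zero_iff hw hφ h0 hz).1 h.symm I
      rwa [er] at this
    have hn := norm_pos_iff.2 hz1
    simp only [uT]
    rw [e1, nTen_prop (g := w) (φ := ldet w) (m0 := m0) (m1 := m1) (e := e) (z := e (e.symm z))
      (c := f z) (by rw [er]; exact hz3), ← e2, Real.log_mul (by positivity) p0.ne',
      add_sub_cancel_right, Real.log_mul (by positivity) (Real.exp_pos _).ne', Real.log_exp, er]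
  funext i
  have hdf := hf.differentiableAt
  have hfr : DifferentiableAt ℝ (fun y => ‖f y‖ ^ 2) (e x) :=
    (hdf.restrictScalars ℝ).norm_sq ℝ
  have hn := norm_pos_iff.2 hf0
  have d1 : DifferentiableAt ℝ (fun y => Real.log (‖f y‖ ^ 2)) (e x) :=
    hfr.log (by positivity)
  have d2 : DifferentiableAt ℝ (ldet w e) (e x) :=
    (hφ.smooth e x hx).differentiableAt (by simp)
  have d1' : DifferentiableAt ℝ (fun y => ((Real.log (‖f y‖ ^ 2) : ℝ) : ℂ)) (e x) :=
    Complex.ofRealCLM.differentiableAt.comp (e x) d1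
  have d2' : DifferentiableAt ℝ (fun y => ((ldet w e y : ℝ) : ℂ)) (e x) :=
    Complex.ofRealCLM.differentiableAt.comp (e x) d2
  have h2 : xi (uT w m0 m1 σ0 σ) e (e x) i =
      dz i f (e x) / f (e x) + ((m1 : ℂ) - m0) * dz i (fun y => ((ldet w e y : ℝ) : ℂ)) (e x) := by
    unfold xi
    have h3 : (fun y => ((uT w m0 m1 σ0 σ (e.symm y) : ℝ) : ℂ)) =ᶠ[𝓝 (e x)]
        fun y => ((Real.log (‖f y‖ ^ 2) : ℝ) : ℂ) +
          ((m1 : ℂ) - m0) * ((ldet w e y : ℝ) : ℂ) := by
      filter_upwards [hloc] with y hy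
      rw [hy]; push_cast; ring
    have d3 : DifferentiableAt ℝ (fun y => ((m1 : ℂ) - m0) * ((ldet w e y : ℝ) : ℂ)) (e x) :=
      (differentiableAt_const _).mul d2'
    rw [INT.dz_congr h3, INT.dz_add d1' d3, INT.dz_const_mul _ d2', dz_log_norm_sq hdf hf0]
  rw [h2, cov]
  field_simp

variable [T2Space X] [CompactSpace X] [ConnectedSpace X]

/-- the Calabi–Yau theorem -/
theorem yau : H835.YauStatement n X := H835.yau_of_c0 H937.c0

/-- **A4-FLAT**: the flatness theorem for ratios of proportional tensors. `cov w b e f z i` is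
`∂_i f + b f ∂_i log det w`. -/
theorem flat_ten (hw : IsKahler w) (hR : RicNonneg w) (h0 : IsTen p m0 σ0) (h1 : IsTen p m1 σ)
    (hz0 : TenNZ σ0) (hp : PropTo σ0 σ) {e : Chart n X} {x : X} (hx : At e x) {f : Cm n → ℂ}
    (hf : AnalyticAt ℂ f (e x)) (hfe : ∀ᶠ z in 𝓝 (e x), ∀ I, σ e z I = f z * σ0 e z I)
    (hr : ∀ e' y, At e' y → (ric w e' (e' y)).rank ≤ (ric w e (e x)).rank)
    (v : Fin n → ℂ) (hv : ∀ j, ∑ i, v i * ric w e (e x) i j = 0) :
    ∑ i, cov w ((m1 : ℂ) - m0) e f (e x) i * v i = 0 := by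
  have hwH := hw.toIsHermitian
  have hφ := isCanonical_ldet hwH
  by_cases hfz : ∀ᶠ z in 𝓝 (e x), f z = 0
  · have h2 : ∀ i, dz i f (e x) = 0 := fun i => by
      rw [INT.dz_congr (G := fun _ => 0) hfz, INT.dz_const]
    simp [cov, h2, hfz.self_of_nhds]
  set ν := (ric w e (e x)).rank with hν
  -- frequently near `e x`, `f` and `σ0` do not vanish
  have hfreq : ∃ᶠ z in 𝓝 (e x), f z ≠ 0 ∧ σ0 e z ≠ 0 := by
    rw [Filter.Frequently]
    intro hcon
    apply hfz
    have han := hf.eventually_analyticAt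
    filter_upwards [eventually_eventually_nhds.2 hcon, han, hx.nhds_target] with z hz hza hzt
    by_contra hne
    have h3 : ∀ᶠ y in 𝓝 z, f y ≠ 0 := hza.continuousAt.eventually_ne hne
    have h4 : ∀ᶠ y in 𝓝 z, σ0 e y = 0 := by
      filter_upwards [hz, h3] with y hy hy3
      by_contra h5
      exact hy ⟨hy3, h5⟩
    have hat : At e (e.symm z) := At.of_target hx.1 hzt
    have h5 : ∀ᶠ y in 𝓝 (e.symm z), σ0 e (e y) = 0 := by
      have : Tendsto e (𝓝 (e.symm z)) (𝓝 z) := by
        have := e.continuousAt hat.2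
        rwa [ContinuousAt, e.right_inv hzt] at this
      exact this.eventually h4
    obtain ⟨y, hy1, hy2, hy3⟩ := ((mem_closure_iff_frequently.1
      (H212.dense_nzSet h0 hz0 (e.symm z))).and_eventually
      (h5.and (e.open_source.mem_nhds hat.2))).exists
    exact (H212.mem_nzSet h0 ⟨hx.1, hy3⟩).1 hy1 hy2
  -- the coefficient vanishes at these points
  have hzero : ∃ᶠ z in 𝓝 (e x), qn w ν (cov w ((m1 : ℂ) - m0) e f z) e z = 0 := by
    refine (hfreq.and_eventually ((eventually_eventually_nhds.2 hfe).and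
      (hf.eventually_analyticAt.and hx.nhds_target))).mono ?_
    rintro z ⟨⟨hz1, hz2⟩, hz3, hz4, hz5⟩
    have hat : At e (e.symm z) := At.of_target hx.1 hz5
    have er : e (e.symm z) = z := e.right_inv hz5
    have hmem : e.symm z ∈ nzSet σ0 ∩ nzSet σ := by
      refine ⟨(H212.mem_nzSet h0 hat).2 (by rwa [er]), (H212.mem_nzSet h1 hat).2 ?_⟩
      rw [er]
      intro h
      obtain ⟨I, hI⟩ := Function.ne_iff.1 hz2
      have := hz3.self_of_nhds I
      rw [h] at this
      exact mul_ne_zero hz1 hI this.symm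
    have hq := flat_core (V := nzSet σ0 ∩ nzSet σ) (u := uT w m0 m1 σ0 σ) yau hw hR
      (Nat.cast_nonneg m1) (Nat.cast_nonneg m0)
      ((H212.isOpen_nzSet h0).inter (H212.isOpen_nzSet h1))
      (fun g hg hc => uT_struct hw hR h0 h1 hp hg hc) hr hat hmem
    have hce := cov_eq hwH h0 h1 hat (f := f) (by rwa [er]) (by rwa [er]) (by rwa [er])
      (by rwa [er])
    rw [er] at hce hq
    rw [hce, qn_smul, hq, mul_zero]
  -- continuity
  have hcont : ContinuousAt (fun z => qn w ν (cov w ((m1 : ℂ) - m0) e f z) e z) (e x) := by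
    refine continuousAt_qn hw hR ν hx fun i => ?_
    have c1 : ContinuousAt (fun z => dz i f z) (e x) :=
      (contDiffAt_dz (m := 0) (r := 1) ((hf.contDiffAt (n := 1)).restrict_scalars ℝ)
        (by simp)).continuousAt
    have c2 : ContinuousAt (fun z => dz i (fun y => ((ldet w e y : ℝ) : ℂ)) z) (e x) :=
      (contDiffAt_dz (m := 0) (r := 1) ((ofReal_contDiffAt (hφ.smooth e x hx)).of_le
        (by norm_cast)) (by simp)).continuousAt
    exact c1.add ((continuousAt_const.mul hf.continuousAt).mul c2)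
  have hq0 : qn w ν (cov w ((m1 : ℂ) - m0) e f (e x)) e (e x) = 0 := by
    by_contra hne
    exact hzero ((hcont.eventually_ne hne).mono fun z hz h => hz h)
  exact kills_of_qn hw hR hx hq0.le v hv

/-- **A4-FLAT for functions** (`m₁ = m₀`): `∂f` kills `ker Ric(w)` at the points of maximal rank. -/
theorem flat_ten0 (hw : IsKahler w) (hR : RicNonneg w) (h0 : IsTen p m0 σ0) (h1 : IsTen p m0 σ)
    (hz0 : TenNZ σ0) (hp : PropTo σ0 σ) {e : Chart n X} {x : X} (hx : At e x) {f : Cm n → ℂ}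
    (hf : AnalyticAt ℂ f (e x)) (hfe : ∀ᶠ z in 𝓝 (e x), ∀ I, σ e z I = f z * σ0 e z I)
    (hr : ∀ e' y, At e' y → (ric w e' (e' y)).rank ≤ (ric w e (e x)).rank)
    (v : Fin n → ℂ) (hv : ∀ j, ∑ i, v i * ric w e (e x) i j = 0) :
    ∑ i, v i * dz i f (e x) = 0 := by
  have := flat_ten hw hR h0 h1 hz0 hp hx hf hfe hr v hv
  rw [← this]
  refine Finset.sum_congr rfl fun i _ => ?_
  simp [cov, mul_comm]

end Vale.Agent.P299.H882
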