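import Vale.Agent.P299.H882.End0
import Mathlib.FieldTheory.IsAlgClosed.Basic

/-!
# The case `K' = ℂ`, for helper212's field `kp`
-/

open scoped Manifold ContDiff ComplexOrder Topology
open Complex Set Filter

set_option linter.all false

noncomputable section

namespace Vale.Agent.P299.H882

open Vale.Agent.P272.K Vale.Agent.P299.D
open H212 (PropTo nzSet FM RegAt InKp kp TRel)

variable {n : ℕ} {X : Type*} [TopologicalSpace X] [ChartedSpace (Cm n) X]
  [IsManifold 𝓘(ℂ, Cm n) ω X] [ConnectedSpace X]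
  {R L : Type*} [CommRing R] [IsDomain R] [Algebra ℂ R]
  [Field L] [Algebra R L] [IsFractionRing R L] [Algebra ℂ L] [IsScalarTower ℂ R L]
  {F : FM n X R}

/-- tensors whose quotient is a constant -/
theorem const_of_trel {k m : ℕ} {u₀ u : Ten n k X} (h₀ : IsTen k m u₀) (h₁ : IsTen k m u) {c : ℂ}
    (ht : TRel F (algebraMap ℂ L c) u₀ u) : ∀ e x, At e x → ∀ I, u e (e x) I = c * u₀ e (e x) I := by
  intro e x hx I
  by_contra hne
  have hu : ContinuousAt (fun y => u e (e y) I) x :=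
    (h₁.holo e x hx I).continuousAt.comp (e.continuousAt hx.2)
  have hu0 : ContinuousAt (fun y => u₀ e (e y) I) x :=
    (h₀.holo e x hx I).continuousAt.comp (e.continuousAt hx.2)
  have h1 : ∀ᶠ y in 𝓝 x, u e (e y) I - c * u₀ e (e y) I ≠ 0 :=
    (hu.sub (continuousAt_const.mul hu0)).eventually_ne (sub_ne_zero.2 hne)
  obtain ⟨y, hy, hy1, hy2⟩ := (((H212.genF_iff.1 ht).frequently' x).and_eventually
    (h1.and (e.open_source.mem_nhds hx.2))).exists
  simp only [Set.mem_setOf_eq, not_not] at hy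
  obtain ⟨v, hv, hv'⟩ := hy
  have hvc : v = c := hv.unique (H212.regAt_const hv.1 c)
  apply hy1
  rw [hv' e ⟨hx.1, hy2⟩ I, hvc, sub_self]

/-- algebraic elements over `ℂ` are constants -/
theorem eq_const_of_algebraic {f : L} (hf : IsAlgebraic ℂ f) : ∃ c : ℂ, f = algebraMap ℂ L c := by
  have h1 := hf.isIntegral
  have hdeg := IsAlgClosed.degree_eq_one_of_irreducible ℂ (minpoly.irreducible h1)
  have h2 := minpoly.mem_range_of_degree_eq_one ℂ f hdeg
  obtain ⟨c, hc⟩ := h2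
  exact ⟨c, hc.symm⟩

/-- **A4-END0 for `kp`.** `hrat`: quotients of proportional tensors are in `L`; `halg`: `K'` is
algebraic over `ℂ` (transcendence degree `0`). -/
theorem end0_kp (k : ℕ)
    (hinf : ∀ m₀ : ℕ, ∃ m : ℕ, m₀ ≤ m ∧ ∃ s : Ten n k X, IsTen k m s ∧ TenNZ s)
    (hrat : ∀ (k m : ℕ) (u₀ u : Ten n k X), IsTen k m u₀ → IsTen k m u → TenNZ u₀ → TenNZ u →
      PropTo u₀ u → ∃ f : L, TRel F f u₀ u)
    (halg : ∀ f ∈ kp L F, IsAlgebraic ℂ f) :
    ∃ m : ℕ, 0 < m ∧ ∃ s : Ten n 0 X, IsTen 0 m s ∧ TenNZ s := by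
  refine end0 k hinf fun k m u₀ u h₀ h₁ hz₀ hz₁ hp => ?_
  obtain ⟨f, hf⟩ := hrat k m u₀ u h₀ h₁ hz₀ hz₁ hp
  obtain ⟨c, rfl⟩ := eq_const_of_algebraic (halg f ⟨k, m, u₀, u, h₀, h₁, hz₀, hf⟩)
  exact ⟨c, const_of_trel h₀ h₁ hf⟩

end Vale.Agent.P299.H882
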