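import Vale.Agent.P299.H882.FlatTen
import Vale.Agent.P299.H212.FM

/-!
# Flatness of the elements of `K'`
-/

open scoped Manifold ContDiff ComplexOrder Topology
open Complex Set Filter MeasureTheory Matrix

set_option linter.all false

noncomputable section

namespace Vale.Agent.P299.H882

open Vale.Agent.P272.K Vale.Agent.P272.K.AMP Vale.Agent.P299.D
open H212 (PropTo nzSet FM RegAt InKp kp TRel)

variable {n : ℕ} {X : Type} [TopologicalSpace X] [ChartedSpace (Cm n) X]
  [IsManifold 𝓘(ℂ, Cm n) ω X]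
  {w : Chart n X → Cm n → Matrix (Fin n) (Fin n) ℂ}
  {R L : Type*} [CommRing R] [IsDomain R] [Algebra ℂ R]
  [Field L] [Algebra R L] [IsFractionRing R L] [Algebra ℂ L] [IsScalarTower ℂ R L]
  {F : FM n X R} {h : L}

/-- the value of a regular function is holomorphic -/
theorem regAt_local {x : X} {v : ℂ} (hv : RegAt F x h v) {e : Chart n X} (hx : At e x) :
    ∃ φ : Cm n → ℂ, AnalyticAt ℂ φ (e x) ∧ φ (e x) = v ∧
      ∀ᶠ z in 𝓝 (e x), RegAt F (e.symm z) h (φ z) := by
  obtain ⟨hxa, a, c, hac, hc, hv⟩ := hv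
  have hA := F.holo a e x hx hxa
  have hC := F.holo c e x hx hxa
  have hc' : F.ev (e.symm (e x)) c ≠ 0 := by rwa [hx.left_inv]
  refine ⟨fun z => F.ev (e.symm z) a / F.ev (e.symm z) c, hA.div hC hc', ?_, ?_⟩
  · simp only [hx.left_inv]; exact hv.symm
  · have h1 : Tendsto e.symm (𝓝 (e x)) (𝓝 x) := by
      have := e.continuousAt_symm hx.mem_target
      rwa [ContinuousAt, hx.left_inv] at this
    filter_upwards [hC.continuousAt.eventually_ne hc', h1.eventually (F.isOpen.mem_nhds hxa)]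
      with z hz hz'
    exact ⟨hz', a, c, hac, hz, rfl⟩

/-- values of `h` give the local proportionality factor -/
theorem trel_local {k m0 m1 : ℕ} {u0 u : Ten n k X} (h0 : IsTen k m0 u0) (h1 : IsTen k m1 u)
    (ht : TRel F h u0 u) {x : X} {e : Chart n X} (hx : At e x) {φ : Cm n → ℂ}
    (hφ : ∀ᶠ z in 𝓝 (e x), RegAt F (e.symm z) h (φ z)) :
    AnalyticAt ℂ φ (e x) ∧ ∀ᶠ z in 𝓝 (e x), ∀ I, u e z I = φ z * u0 e z I := by
  have hx0 := hφ.self_of_nhds
  obtain ⟨φ', hφ', -, hreg⟩ := regAt_local hx0 (e := e) (by rwa [hx.left_inv])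
  rw [hx.left_inv] at hφ' hreg
  have heq : φ' =ᶠ[𝓝 (e x)] φ := by
    filter_upwards [hφ, hreg] with z hz hz' using hz'.unique hz
  have han : AnalyticAt ℂ φ (e x) := hφ'.congr heq
  refine ⟨han, ?_⟩
  filter_upwards [eventually_eventually_nhds.2 hφ, han.eventually_analyticAt, hx.nhds_target]
    with z hz hza hzt I
  have hat : At e (e.symm z) := At.of_target hx.1 hzt
  by_contra hne
  have hu := h1.holo e _ hat I
  have hu0 := h0.holo e _ hat I
  rw [e.right_inv hzt] at hu hu0
  have hcont : ContinuousAt (fun y => u e y I - φ y * u0 e y I) z :=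
    hu.continuousAt.sub (hza.continuousAt.mul hu0.continuousAt)
  have hne' := hcont.eventually_ne (sub_ne_zero.2 hne)
  have hfr := (H212.genF_iff.1 ht).frequently hat
  rw [e.right_inv hzt] at hfr
  obtain ⟨y, hy1, hy2, hy3, hy4⟩ := (hfr.and_eventually (hne'.and (hz.and
    (e.open_target.mem_nhds hzt)))).exists
  simp only [Set.mem_setOf_eq, not_not] at hy1
  obtain ⟨v, hv, hv'⟩ := hy1
  have hvφ : v = φ y := hv.unique hy3
  have h3 := hv' e (At.of_target hx.1 hy4) I
  rw [e.right_inv hy4, hvφ] at h3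
  exact hy2 (sub_eq_zero.2 h3)

variable [T2Space X] [CompactSpace X] [ConnectedSpace X]

/-- **Flatness of the elements of `K'`.** If `h` is a quotient of two proportional holomorphic
tensors of the same type, and `φ` is the expression of `h` in the chart `e` near `x`, where `h` is
regular and `Ric(w)` has maximal rank, then `∂φ` kills the kernel of `Ric(w)`. -/
theorem kp_flat (hw : IsKahler w) (hR : RicNonneg w) (hh : h ∈ kp L F) {x : X} {e : Chart n X}
    (hx : At e x) {φ : Cm n → ℂ} (hφ : ∀ᶠ z in 𝓝 (e x), RegAt F (e.symm z) h (φ z))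
    (hr : ∀ e' y, At e' y → (ric w e' (e' y)).rank ≤ (ric w e (e x)).rank)
    (v : Fin n → ℂ) (hv : ∀ j, ∑ i, v i * ric w e (e x) i j = 0) :
    ∑ i, v i * dz i φ (e x) = 0 := by
  obtain ⟨k, m, u0, u, h0, h1, hz, ht⟩ := hh
  obtain ⟨han, hloc⟩ := trel_local h0 h1 ht hx hφ
  have hp : PropTo u0 u := by
    refine H212.propTo_of_dense h0 h1 (S := {y | ∃ v, RegAt F y h v ∧ ∀ e : Chart n X, At e y →
      ∀ I, u e (e y) I = v * u0 e (e y) I}) ?_ ?_
    · have := (H212.genF_iff.1 ht).dense_compl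
      refine this.mono fun y hy => ?_
      simpa only [Set.mem_compl_iff, Set.mem_setOf_eq, not_not] using hy
    · rintro e' y hy ⟨v', -, hv'⟩ I J
      rw [hv' e' hy I, hv' e' hy J]
      ring
  exact flat_ten0 hw hR h0 h1 hz hp hx han hloc hr v hv

end Vale.Agent.P299.H882
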