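import Vale.Agent.P299.H212.FM
import Vale.Agent.P299.H212.Select
import Mathlib.Analysis.Complex.AbsMax

/-!
# The case `K' = ℂ`

If any two proportional holomorphic tensors of the same type are constant multiples of each other
and there are nonzero holomorphic sections of `(Ω¹)^{⊗k} ⊗ (-mK)` for infinitely many `m`, then some
`-mK`, `m > 0`, has a nonzero section.
-/

open scoped Manifold ContDiff ComplexOrder Topology
open Complex Set Filter Metric

set_option linter.all false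

noncomputable section

namespace Vale.Agent.P299.H882

open Vale.Agent.P272.K Vale.Agent.P299.D
open H212 (PropTo nzSet tmul isTen_tmul)

section local_

/-- `q^j α ≤ β M^j` for infinitely many `j` implies `q ≤ M` -/
lemma le_of_pow_bound {q M α β : ℝ} (hM : 0 ≤ M) (hα : 0 < α) {J : Set ℕ} (hJ : J.Infinite)
    (h : ∀ j ∈ J, q ^ j * α ≤ β * M ^ j) : q ≤ M := by
  by_contra hlt
  rw [not_le] at hlt
  set M' := (q + M) / 2 with hM'
  have h1 : M < M' := by rw [hM']; linarith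
  have h2 : M' < q := by rw [hM']; linarith
  have hM'0 : 0 < M' := lt_of_le_of_lt hM h1
  have hq : 1 < q / M' := by rw [lt_div_iff₀ hM'0, one_mul]; exact h2
  have hβ : 0 ≤ |β| := abs_nonneg β
  obtain ⟨N, hN⟩ := pow_unbounded_of_one_lt (|β| / α) hq
  obtain ⟨j, hj, hjN⟩ := hJ.exists_gt N
  have h3 := h j hj
  have h4 : (q / M') ^ j * α ≤ |β| := by
    rw [div_pow, div_mul_eq_mul_div, div_le_iff₀ (pow_pos hM'0 j)]
    refine h3.trans ?_
    exact mul_le_mul (le_abs_self β) (pow_le_pow_left₀ hM h1.le j) (pow_nonneg hM j) hβ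
  have h5 : (q / M') ^ N ≤ (q / M') ^ j := pow_le_pow_right₀ hq.le hjN.le
  rw [div_lt_iff₀ hα] at hN
  nlinarith

variable {V : Type*} [NormedAddCommGroup V] [NormedSpace ℂ V]

/-- **Local boundedness**: if `(b/a)^j a^d` is holomorphic near `p` for infinitely many `j` then
`b/a` is bounded near `p`. -/
theorem local_bound {p : V} {a b : V → ℂ} {r₀ : ℝ} (hr₀ : 0 < r₀)
    (ha : ∀ z ∈ ball p r₀, AnalyticAt ℂ a z) (hb : ∀ z ∈ ball p r₀, AnalyticAt ℂ b z)
    (h0 : ¬ ∀ᶠ z in 𝓝 p, a z = 0) {d : ℕ} {J : Set ℕ} (hJ : J.Infinite)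
    (h : ∀ j ∈ J, ∃ g : V → ℂ, (∀ z ∈ ball p r₀, AnalyticAt ℂ g z) ∧
      ∀ z ∈ ball p r₀, g z * a z ^ j = a z ^ d * b z ^ j) :
    ∃ C : ℝ, ∀ᶠ y in 𝓝 p, a y ≠ 0 → ‖b y‖ ≤ C * ‖a y‖ := by
  -- a direction in which `a` is not identically zero
  obtain ⟨y₀, hy₀, hy₀b⟩ := ((Filter.not_eventually.1 h0).and_eventually
    (ball_mem_nhds p hr₀)).exists
  set v : V := y₀ - p with hv
  have hline : ∀ (y : V) (ζ : ℂ), AnalyticAt ℂ (fun ζ : ℂ => y + ζ • v) ζ := fun y ζ =>
    analyticAt_const.add (analyticAt_id.smul analyticAt_const)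
  have hvn : ‖v‖ < r₀ := by rw [hv, ← dist_eq_norm]; exact hy₀b
  have hmem : ∀ ζ ∈ closedBall (0 : ℂ) 1, p + ζ • v ∈ ball p r₀ := by
    intro ζ hζ
    rw [mem_ball_iff_norm, add_sub_cancel_left, norm_smul]
    rw [mem_closedBall_zero_iff] at hζ
    exact lt_of_le_of_lt (mul_le_of_le_one_left (norm_nonneg v) hζ) hvn
  have hg : ∀ ζ ∈ closedBall (0 : ℂ) 1, AnalyticAt ℂ (fun ζ : ℂ => a (p + ζ • v)) ζ := by
    intro ζ hζ
    exact AnalyticAt.comp (g := a) (f := fun ζ : ℂ => p + ζ • v) (ha _ (hmem ζ hζ)) (hline p ζ)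
  have hne : ∀ᶠ ζ in 𝓝[≠] (0 : ℂ), a (p + ζ • v) ≠ 0 := by
    rcases (hg 0 (by simp)).eventually_eq_zero_or_eventually_ne_zero with h1 | h1
    · exfalso
      have h2 := AnalyticOnNhd.eqOn_zero_of_preconnected_of_eventuallyEq_zero
        (f := fun ζ : ℂ => a (p + ζ • v)) (U := closedBall (0 : ℂ) 1) hg
        (convex_closedBall (0 : ℂ) 1).isPreconnected (z₀ := 0) (by simp) h1
      have h3 := h2 (x := 1) (by simp)
      simp only [one_smul, hv, add_sub_cancel, Pi.zero_apply] at h3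
      exact hy₀ h3
    · exact h1
  rw [eventually_nhdsWithin_iff, Metric.eventually_nhds_iff_ball] at hne
  obtain ⟨ρ, hρ, hρ'⟩ := hne
  set r : ℝ := min (ρ / 2) 1 with hr
  have hrpos : 0 < r := lt_min (half_pos hρ) one_pos
  have hr1 : r ≤ 1 := min_le_right _ _
  have hrρ : r < ρ := lt_of_le_of_lt (min_le_left _ _) (half_lt_self hρ)
  have hcirc : ∀ ζ ∈ sphere (0 : ℂ) r, a (p + ζ • v) ≠ 0 := by
    intro ζ hζ
    rw [mem_sphere_zero_iff_norm] at hζ
    refine hρ' ζ (by rw [mem_ball_zero_iff, hζ]; exact hrρ) ?_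
    intro h1
    rw [mem_singleton_iff] at h1
    rw [h1, norm_zero] at hζ
    exact hrpos.ne hζ
  have hcircb : ∀ ζ ∈ sphere (0 : ℂ) r, ζ ∈ closedBall (0 : ℂ) 1 := by
    intro ζ hζ
    rw [mem_sphere_zero_iff_norm] at hζ
    rw [mem_closedBall_zero_iff, hζ]
    exact hr1
  -- bounds on the circle
  have hcont : ∀ {f : V → ℂ}, (∀ z ∈ ball p r₀, AnalyticAt ℂ f z) →
      ContinuousOn (fun ζ : ℂ => f (p + ζ • v)) (sphere (0 : ℂ) r) := by
    intro f hf ζ hζ
    exact (AnalyticAt.comp (g := f) (f := fun ζ : ℂ => p + ζ • v) (hf _ (hmem ζ (hcircb ζ hζ)))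
      (hline p ζ)).continuousAt.continuousWithinAt
  have hcpt : IsCompact (sphere (0 : ℂ) r) := isCompact_sphere 0 r
  have hsne : (sphere (0 : ℂ) r).Nonempty := ⟨(r : ℂ), by
    rw [mem_sphere_zero_iff_norm, Complex.norm_real, Real.norm_eq_abs, abs_of_pos hrpos]⟩
  obtain ⟨ζ₁, hζ₁, hmin⟩ := hcpt.exists_isMinOn hsne (hcont ha).norm
  set δ : ℝ := ‖a (p + ζ₁ • v)‖ / 2 with hδ
  have hδpos : 0 < δ := half_pos (norm_pos_iff.2 (hcirc ζ₁ hζ₁))
  obtain ⟨Ka, hKa⟩ := hcpt.exists_bound_of_continuousOn (hcont ha)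
  obtain ⟨Kb, hKb⟩ := hcpt.exists_bound_of_continuousOn (hcont hb)
  have hev : ∀ᶠ y in 𝓝 p, ∀ ζ ∈ sphere (0 : ℂ) r, δ < ‖a (y + ζ • v)‖ ∧
      ‖a (y + ζ • v)‖ < Ka + 1 ∧ ‖b (y + ζ • v)‖ < Kb + 1 := by
    refine hcpt.eventually_forall_of_forall_eventually fun ζ hζ => ?_
    have hA : Tendsto (fun q : V × ℂ => q.1 + q.2 • v) (𝓝 (p, ζ)) (𝓝 (p + ζ • v)) := by
      have : Continuous fun q : V × ℂ => q.1 + q.2 • v := by fun_prop
      exact this.tendsto (p, ζ)
    have hz := hmem ζ (hcircb ζ hζ)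
    have cA : Tendsto (fun q : V × ℂ => ‖a (q.1 + q.2 • v)‖) (𝓝 (p, ζ))
        (𝓝 ‖a (p + ζ • v)‖) := ((ha _ hz).continuousAt.tendsto.comp hA).norm
    have cB : Tendsto (fun q : V × ℂ => ‖b (q.1 + q.2 • v)‖) (𝓝 (p, ζ))
        (𝓝 ‖b (p + ζ • v)‖) := ((hb _ hz).continuousAt.tendsto.comp hA).norm
    have h1 : δ < ‖a (p + ζ • v)‖ := by
      have h2 : ‖a (p + ζ₁ • v)‖ ≤ ‖a (p + ζ • v)‖ := hmin hζ
      have h3 : δ < ‖a (p + ζ₁ • v)‖ := half_lt_self (norm_pos_iff.2 (hcirc ζ₁ hζ₁))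
      linarith
    have h2 : ‖a (p + ζ • v)‖ < Ka + 1 := by have := hKa ζ hζ; linarith
    have h3 : ‖b (p + ζ • v)‖ < Kb + 1 := by have := hKb ζ hζ; linarith
    have e1 := cA.eventually (lt_mem_nhds h1)
    have e2 := cA.eventually (gt_mem_nhds h2)
    have e3 := cB.eventually (gt_mem_nhds h3)
    filter_upwards [e1, e2, e3] with q q1 q2 q3 using ⟨q1, q2, q3⟩
  -- points whose discs stay in the ball
  have hball : ∀ᶠ y in 𝓝 p, ∀ ζ ∈ closedBall (0 : ℂ) r, y + ζ • v ∈ ball p r₀ := by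
    refine (isCompact_closedBall (0 : ℂ) r).eventually_forall_of_forall_eventually fun ζ hζ => ?_
    have hA : Tendsto (fun q : V × ℂ => q.1 + q.2 • v) (𝓝 (p, ζ)) (𝓝 (p + ζ • v)) := by
      have : Continuous fun q : V × ℂ => q.1 + q.2 • v := by fun_prop
      exact this.tendsto (p, ζ)
    exact hA.eventually (isOpen_ball.mem_nhds (hmem ζ (closedBall_subset_closedBall hr1 hζ)))
  have hKb0 : 0 ≤ Kb := (norm_nonneg _).trans (hKb ζ₁ hζ₁)
  have hKa0 : 0 ≤ Ka := (norm_nonneg _).trans (hKa ζ₁ hζ₁)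
  set M : ℝ := (Kb + 1) / δ with hM
  have hM0 : 0 ≤ M := by positivity
  refine ⟨M, ?_⟩
  filter_upwards [hev, hball] with y hy hyb hay
  have hanpos : 0 < ‖a y‖ := norm_pos_iff.2 hay
  have hy0 : y ∈ ball p r₀ := by
    have := hyb 0 (by simp [hrpos.le])
    simpa using this
  rw [← div_le_iff₀ hanpos]
  refine le_of_pow_bound (α := ‖a y‖ ^ d) (β := (Ka + 1) ^ d) hM0 (pow_pos hanpos d) hJ
    fun j hj => ?_
  obtain ⟨g, hga, hge⟩ := h j hj
  -- the value at the centre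
  have hgy : ‖g y‖ = (‖b y‖ / ‖a y‖) ^ j * ‖a y‖ ^ d := by
    have h1 := congrArg norm (hge y hy0)
    rw [norm_mul, norm_mul, norm_pow, norm_pow, norm_pow] at h1
    rw [div_pow, div_mul_eq_mul_div, eq_div_iff (pow_pos hanpos j).ne', h1]
    ring
  rw [← hgy]
  -- maximum principle
  have hd : DiffContOnCl ℂ (fun ζ : ℂ => g (y + ζ • v)) (ball (0 : ℂ) r) := by
    refine DifferentiableOn.diffContOnCl ?_
    rw [closure_ball (0 : ℂ) hrpos.ne']
    intro ζ hζ
    exact (AnalyticAt.comp (g := g) (f := fun ζ : ℂ => y + ζ • v) (hga _ (hyb ζ hζ))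
      (hline y ζ)).differentiableAt.differentiableWithinAt
  have hmax := Complex.norm_le_of_forall_mem_frontier_norm_le (C := (Ka + 1) ^ d * M ^ j)
    isBounded_ball hd (fun ζ hζ => ?_) (z := 0) (subset_closure (mem_ball_self hrpos))
  · simpa using hmax
  · rw [frontier_ball (0 : ℂ) hrpos.ne'] at hζ
    obtain ⟨h1, h2, h3⟩ := hy ζ hζ
    have hζb : ζ ∈ closedBall (0 : ℂ) r := sphere_subset_closedBall hζ
    have h4 := congrArg norm (hge _ (hyb ζ hζb))
    rw [norm_mul, norm_mul, norm_pow, norm_pow, norm_pow] at h4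
    set A := ‖a (y + ζ • v)‖ with hA
    set B := ‖b (y + ζ • v)‖ with hB
    have hApos : 0 < A := hδpos.trans h1
    have h5 : ‖g (y + ζ • v)‖ = A ^ d * (B / A) ^ j := by
      rw [div_pow, mul_div_assoc', eq_div_iff (pow_pos hApos j).ne', h4]
    have hBA : B / A ≤ M := by
      rw [hM]
      exact div_le_div₀ (by positivity) h3.le hδpos h1.le
    show ‖g (y + ζ • v)‖ ≤ _
    rw [h5]
    have hBA0 : 0 ≤ B / A := div_nonneg (norm_nonneg _) hApos.le
    gcongr

end local_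

section tensor

variable {n : ℕ} {X : Type*} [TopologicalSpace X] [ChartedSpace (Cm n) X]

/-- the tensor power -/
def tpw {k : ℕ} (s : Ten n k X) : (r : ℕ) → Ten n (k * r) X
  | 0 => fun _ _ _ => 1
  | r + 1 => tmul (tpw s r) s

/-- the repeated multi-index -/
def rep {k : ℕ} (I : Fin k → Fin n) : (r : ℕ) → (Fin (k * r) → Fin n)
  | 0 => fun i => Fin.elim0 i
  | r + 1 => Fin.append (rep I r) I

theorem isTen_tpw {k m : ℕ} {s : Ten n k X} (hs : IsTen k m s) (r : ℕ) :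
    IsTen (k * r) (m * r) (tpw s r) := by
  induction r with
  | zero => exact H212.isTen_one
  | succ r ih => exact isTen_tmul ih hs

theorem tpw_rep {k : ℕ} (s : Ten n k X) (e : Chart n X) (z : Cm n) (I : Fin k → Fin n) (r : ℕ) :
    tpw s r e z (rep I r) = s e z I ^ r := by
  induction r with
  | zero => simp [tpw]
  | succ r ih =>
    show tmul (tpw s r) s e z (Fin.append (rep I r) I) = _
    simp only [tmul, Fin.append_left, Fin.append_right]
    rw [pow_succ, ← ih]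

theorem tpw_smul {k : ℕ} {s t : Ten n k X} {e : Chart n X} {z : Cm n} {α : ℂ}
    (h : ∀ I, t e z I = α * s e z I) (r : ℕ) : ∀ I, tpw t r e z I = α ^ r * tpw s r e z I := by
  induction r with
  | zero => intro I; simp [tpw]
  | succ r ih =>
    intro I
    show tmul (tpw t r) t e z I = α ^ (r + 1) * tmul (tpw s r) s e z I
    simp only [tmul]
    rw [ih, h]
    ring

variable [IsManifold 𝓘(ℂ, Cm n) ω X] [ConnectedSpace X]

theorem tenNZ_tpw {k m : ℕ} {s : Ten n k X} (hs : IsTen k m s) (h0 : TenNZ s) (r : ℕ) :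
    TenNZ (tpw s r) := by
  obtain ⟨e, x, I, hx, hI⟩ := h0
  exact ⟨e, x, rep I r, hx, by rw [tpw_rep]; exact pow_ne_zero _ hI⟩

/-- **A4-END0.** If any two proportional nonzero holomorphic tensors of the same type are constant
multiples of each other, and there are nonzero sections of `(Ω¹)^{⊗k} ⊗ (-mK)` for infinitely many
`m`, then some `-mK`, `m > 0`, has a nonzero section. -/
theorem end0 (k : ℕ)
    (hinf : ∀ m₀ : ℕ, ∃ m : ℕ, m₀ ≤ m ∧ ∃ s : Ten n k X, IsTen k m s ∧ TenNZ s)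
    (hK : ∀ (k m : ℕ) (u₀ u : Ten n k X), IsTen k m u₀ → IsTen k m u → TenNZ u₀ → TenNZ u →
      PropTo u₀ u → ∃ c : ℂ, ∀ e x, At e x → ∀ I, u e (e x) I = c * u₀ e (e x) I) :
    ∃ m : ℕ, 0 < m ∧ ∃ s : Ten n 0 X, IsTen 0 m s ∧ TenNZ s := by
  classical
  obtain ⟨p, N₁, T, σ, hT, hσ, hp⟩ := H212.exists_proportional k hinf
  obtain ⟨m₁, hm₁⟩ := hT.nonempty
  obtain ⟨m₂, hm₂, hlt⟩ := hT.exists_gt m₁
  set d : ℕ := m₂ - m₁ with hd
  have hd0 : 0 < d := Nat.sub_pos_of_lt hlt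
  set s₁ := σ m₁ with hs₁
  set s₂ := σ m₂ with hs₂
  have h1 := (hσ m₁ hm₁).1
  have hz1 := (hσ m₁ hm₁).2
  have h2 := (hσ m₂ hm₂).1
  have hz2 := (hσ m₂ hm₂).2
  have hp12 := hp m₁ hm₁ m₂ hm₂
  rw [← hs₁] at h1 hz1 hp12
  rw [← hs₂] at h2 hz2 hp12
  -- pointwise proportionality factor
  have factor : ∀ {t : Ten n p X}, PropTo s₁ t → ∀ {e : Chart n X} {x : X}, At e x →
      s₁ e (e x) ≠ 0 → ∃ α : ℂ, ∀ I, t e (e x) I = α * s₁ e (e x) I := by
    intro t ht e x hx hne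
    obtain ⟨J, hJ⟩ := Function.ne_iff.1 hne
    simp only [Pi.zero_apply] at hJ
    refine ⟨t e (e x) J / s₁ e (e x) J, fun I => ?_⟩
    have := ht e x hx I J
    field_simp
    linear_combination -this
  -- the relations
  have rel : ∀ m ∈ T, m₁ < m → ∃ c : ℂ, c ≠ 0 ∧ ∀ e x, At e x → ∀ I,
      σ m e (e x) I ^ d * s₁ e (e x) I ^ (m - m₁) =
        c * (s₁ e (e x) I ^ d * s₂ e (e x) I ^ (m - m₁)) := by
    intro m hm hlt'
    set j := m - m₁ with hj
    have h3 := (hσ m hm).1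
    have hz3 := (hσ m hm).2
    set B := tmul (tpw s₁ d) (tpw s₂ j) with hB
    set A := tmul (tpw (σ m) d) (tpw s₁ j) with hA
    have hBt : IsTen (p * d + p * j) ((N₁ + m₁) * d + (N₁ + m₂) * j) B :=
      isTen_tmul (isTen_tpw h1 d) (isTen_tpw h2 j)
    have hAt : IsTen (p * d + p * j) ((N₁ + m₁) * d + (N₁ + m₂) * j) A := by
      have h4 := isTen_tmul (isTen_tpw h3 d) (isTen_tpw h1 j)
      have h5 : (N₁ + m) * d + (N₁ + m₁) * j = (N₁ + m₁) * d + (N₁ + m₂) * j := by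
        have e1 : m = m₁ + j := by omega
        have e2 : m₂ = m₁ + d := by omega
        rw [e2, e1]
        ring
      rwa [h5] at h4
    have hBz : TenNZ B := H212.tenNZ_tmul (isTen_tpw h1 d) (isTen_tpw h2 j)
      (tenNZ_tpw h1 hz1 d) (tenNZ_tpw h2 hz2 j)
    have hAz : TenNZ A := H212.tenNZ_tmul (isTen_tpw h3 d) (isTen_tpw h1 j)
      (tenNZ_tpw h3 hz3 d) (tenNZ_tpw h1 hz1 j)
    have hprop : PropTo B A := by
      refine H212.propTo_of_dense hBt hAt (H212.dense_nzSet h1 hz1) ?_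
      intro e x hx hxn I J
      have hne := (H212.mem_nzSet h1 hx).1 hxn
      obtain ⟨α, hα⟩ := factor (hp m₁ hm₁ m hm) hx hne
      obtain ⟨β, hβ⟩ := factor hp12 hx hne
      simp only [hB, hA, tmul]
      rw [tpw_smul hα d, tpw_smul hα d, tpw_smul hβ j, tpw_smul hβ j]
      ring
    obtain ⟨c, hc⟩ := hK _ _ B A hBt hAt hBz hAz hprop
    refine ⟨c, ?_, fun e x hx I => ?_⟩
    · rintro rfl
      obtain ⟨e, x, I, hx, hI⟩ := hAz
      exact hI (by rw [hc e x hx I, zero_mul])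
    · have h4 := hc e x hx (Fin.append (rep I d) (rep I j))
      simp only [hB, hA, tmul, Fin.append_left, Fin.append_right, tpw_rep] at h4
      exact h4
  -- the section
  set N : Set X := (nzSet s₁)ᶜ with hN
  have hNthin : H212.Thin (n := n) N := H212.thin_zero h1 hz1
  set A : Ten n 0 X := fun e z _ => if h : ∃ I, s₁ e z I ≠ 0 then s₂ e z h.choose / s₁ e z h.choose
    else 0 with hA
  have hA1 : ∀ e x, At e x → x ∉ N → ∀ J I, s₂ e (e x) I = A e (e x) J * s₁ e (e x) I := by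
    intro e x hx hxN J I
    have hne : s₁ e (e x) ≠ 0 := (H212.mem_nzSet h1 hx).1 (not_not.1 hxN)
    have hex : ∃ I, s₁ e (e x) I ≠ 0 := Function.ne_iff.1 hne
    simp only [hA]
    rw [dif_pos hex]
    obtain ⟨α, hα⟩ := factor hp12 hx hne
    rw [hα hex.choose, hα I, mul_div_cancel_right₀ _ hex.choose_spec]
  have hA2 : ∀ e x, At e x → x ∈ N → ∀ J, A e (e x) J = 0 := by
    intro e x hx hxN J
    have hne : ¬ ∃ I, s₁ e (e x) I ≠ 0 := by
      rintro ⟨I, hI⟩
      exact hxN ((H212.mem_nzSet h1 hx).2 fun h => hI (by rw [h]; rfl))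
    simp only [hA]
    rw [dif_neg hne]
  have hAquot : ∀ e x, At e x → ∀ I J, s₁ e (e x) I ≠ 0 →
      A e (e x) J = s₂ e (e x) I / s₁ e (e x) I := by
    intro e x hx I J hI
    have hxN : x ∉ N := by
      rw [hN, Set.mem_compl_iff, not_not]
      exact (H212.mem_nzSet h1 hx).2 fun h => hI (by rw [h]; rfl)
    rw [hA1 e x hx hxN J I, mul_div_cancel_right₀ _ hI]
  have hol : ∀ e x, At e x → x ∉ N → ∀ J, AnalyticAt ℂ (fun z => A e z J) (e x) := by
    intro e x hx hxN J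
    have hne : s₁ e (e x) ≠ 0 := (H212.mem_nzSet h1 hx).1 (not_not.1 hxN)
    obtain ⟨I, hI⟩ := Function.ne_iff.1 hne
    simp only [Pi.zero_apply] at hI
    have c1 := h1.holo e x hx I
    refine ((h2.holo e x hx I).div c1 hI).congr ?_
    filter_upwards [c1.continuousAt.eventually_ne hI, hx.nhds_target] with z hz hzt
    have hat := At.of_target hx.1 hzt
    have := hAquot e (e.symm z) hat I J (by rwa [e.right_inv hzt])
    rw [e.right_inv hzt] at this
    exact this.symm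
  have chg : ∀ e e' x, At e x → At e' x → x ∉ N → ∀ I,
      (jacM e e' x).det ^ d * A e (e x) I = tenPull (jacM e e' x) (A e' (e' x)) I := by
    intro e e' x hx hx' hxN J
    have hJ0 : (jacM e e' x).det ≠ 0 := jacM_det_ne_zero hx hx'
    have hne : s₁ e (e x) ≠ 0 := (H212.mem_nzSet h1 hx).1 (not_not.1 hxN)
    obtain ⟨I, hI⟩ := Function.ne_iff.1 hne
    simp only [Pi.zero_apply] at hI
    have e1 := h1.change e e' x hx hx' I
    have e2 := h2.change e e' x hx hx' I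
    have e3 : tenPull (jacM e e' x) (s₂ e' (e' x)) I =
        A e' (e' x) J * tenPull (jacM e e' x) (s₁ e' (e' x)) I := by
      simp only [tenPull, Finset.mul_sum]
      refine Finset.sum_congr rfl fun K _ => ?_
      rw [hA1 e' x hx' hxN J K]
      ring
    rw [e3, ← e1, hA1 e x hx hxN J I] at e2
    have hpull : tenPull (jacM e e' x) (A e' (e' x)) J = A e' (e' x) J := by
      simp only [tenPull]
      rw [Fintype.sum_unique]
      simp
      congr 1
    rw [hpull]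
    have e5 : N₁ + m₂ = N₁ + m₁ + d := by omega
    rw [e5, pow_add] at e2
    have h6 : (jacM e e' x).det ^ (N₁ + m₁) * s₁ e (e x) I ≠ 0 :=
      mul_ne_zero (pow_ne_zero _ hJ0) hI
    refine mul_left_cancel₀ h6 ?_
    linear_combination e2
  have hb : ∀ e x, At e x → ∀ J, ∃ C : ℝ, ∀ᶠ z in 𝓝 (e x), ‖A e z J‖ ≤ C := by
    intro e x hx J
    -- a component which is not identically zero
    obtain ⟨I, hI⟩ : ∃ I, ¬ ∀ᶠ z in 𝓝 (e x), s₁ e z I = 0 := by
      by_contra hcon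
      push Not at hcon
      have h3 : ∀ᶠ z in 𝓝 (e x), s₁ e z = 0 := by
        filter_upwards [eventually_all.2 hcon] with z hz
        funext I
        exact hz I
      have h4 : ∀ᶠ y in 𝓝 x, s₁ e (e y) = 0 := (e.continuousAt hx.2).eventually h3
      obtain ⟨y, hy, hy1, hy2⟩ := ((mem_closure_iff_frequently.1
        (H212.dense_nzSet h1 hz1 x)).and_eventually (h4.and (e.open_source.mem_nhds hx.2))).exists
      exact (H212.mem_nzSet h1 ⟨hx.1, hy2⟩).1 hy hy1
    obtain ⟨r₀, hr₀, hball⟩ := Metric.isOpen_iff.1 e.open_target (e x) hx.mem_target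
    have han : ∀ {m : ℕ} {t : Ten n p X}, IsTen p m t → ∀ z ∈ ball (e x) r₀,
        AnalyticAt ℂ (fun z => t e z I) z := by
      intro m t ht z hz
      have := ht.holo e _ (At.of_target hx.1 (hball hz)) I
      rwa [e.right_inv (hball hz)] at this
    have hJinf : {j : ℕ | m₁ + j ∈ T ∧ 0 < j}.Infinite := by
      rw [Set.infinite_iff_exists_gt] at hT ⊢
      intro a
      obtain ⟨m, hm, hma⟩ := hT (m₁ + a)
      refine ⟨m - m₁, ⟨?_, by omega⟩, by omega⟩
      have : m₁ + (m - m₁) = m := by omega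
      rw [this]; exact hm
    obtain ⟨C, hC⟩ := local_bound (a := fun z => s₁ e z I) (b := fun z => s₂ e z I) (d := d) hr₀
      (han h1) (han h2) hI hJinf (fun j hj => by
        obtain ⟨c, hc0, hc⟩ := rel (m₁ + j) hj.1 (by have := hj.2; omega)
        have h3 := (hσ (m₁ + j) hj.1).1
        refine ⟨fun z => c⁻¹ * σ (m₁ + j) e z I ^ d, fun z hz =>
          analyticAt_const.mul ((han h3 z hz).pow d), fun z hz => ?_⟩
        have h4 := hc e _ (At.of_target hx.1 (hball hz)) I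
        rw [e.right_inv (hball hz), Nat.add_sub_cancel_left] at h4
        rw [mul_assoc, h4, inv_mul_cancel_left₀ hc0])
    refine ⟨max C 0, ?_⟩
    filter_upwards [eventually_eventually_nhds.2 hC, ball_mem_nhds (e x) hr₀,
      H212.eventually_frequently_ne (h1.holo e x hx I) hI] with z hz hzb hzf
    have hzt := hball hzb
    have hat := At.of_target hx.1 hzt
    by_cases hzN : e.symm z ∈ N
    · have := hA2 e _ hat hzN J
      rw [e.right_inv hzt] at this
      rw [this, norm_zero]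
      exact le_max_right _ _
    · have hcA : ContinuousAt (fun z => A e z J) z := by
        have := (hol e _ hat hzN J).continuousAt
        rwa [e.right_inv hzt] at this
      by_contra hcon
      rw [not_le] at hcon
      have h5 : ∀ᶠ y in 𝓝 z, max C 0 < ‖A e y J‖ := hcA.norm.eventually (lt_mem_nhds hcon)
      obtain ⟨y, hy1, hy2, hy3, hy4⟩ := (hzf.and_eventually (h5.and (hz.and
        (e.open_target.mem_nhds hzt)))).exists
      have h6 := hAquot e (e.symm y) (At.of_target hx.1 hy4) I J (by rwa [e.right_inv hy4])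
      rw [e.right_inv hy4] at h6
      have h7 := hy3 hy1
      rw [h6, norm_div, lt_div_iff₀ (norm_pos_iff.2 hy1)] at hy2
      have h8 := mul_le_mul_of_nonneg_right (le_max_left C 0) (norm_nonneg (s₁ e y I))
      linarith
  obtain ⟨A', hA', hAA⟩ := H212.ext_ten_bdd hNthin hol chg hb
  refine ⟨d, hd0, A', hA', ?_⟩
  obtain ⟨x, hx1, hx2⟩ := ((H212.genF_nz h1 hz1).and (H212.genF_nz h2 hz2)).exists
  have hx : At (chartAt (Cm n) x : Chart n X) x := ⟨chart_mem_atlas _ _, mem_chart_source _ _⟩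
  refine ⟨_, x, fun i => Fin.elim0 i, hx, ?_⟩
  have hxN : x ∉ N := by rw [hN, Set.mem_compl_iff, not_not]; exact hx1
  rw [hAA _ x hx hxN]
  intro h0
  refine (H212.mem_nzSet h2 hx).1 hx2 ?_
  funext I
  rw [hA1 _ x hx hxN (fun i => Fin.elim0 i) I, h0, zero_mul]
  rfl

end tensor

end Vale.Agent.P299.H882
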